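import Vale.Agent.P284.H383.Ram7
import Vale.Agent.P284.H15.TP3
import Vale.Agent.P284.H279.TPe
import Vale.Agent.P284.H213.MF.MfS

/-!
# P284 (helper383): `RamStmt` from the potential of a periodic divisor
-/

open scoped Topology
open Filter Set Metric

noncomputable section

namespace Vale.Agent.P284.H383

open Vale.Agent.P272.K Vale.Agent.P284.H279

theorem ramStmt_of3 (h3 : Pot3Stmt) : Vale.Agent.P284.H213.MF.RamStmt := by
  intro q Λ Ed hE hΛ hne hstab g hg hcrit z
  rcases Nat.eq_zero_or_pos q with rfl | hq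
  · obtain ⟨x, hx⟩ := hne
    exact hcrit z (by rw [Subsingleton.elim (g z) x]; exact hx)
  · exact ram_id h3 hq hE hΛ hne hstab hg hcrit z

theorem ramStmt_of (h : PotStmt) : Vale.Agent.P284.H213.MF.RamStmt :=
  ramStmt_of3 (Vale.Agent.P284.H15.TP3.pot3_of h)

/-- **RAM**, unconditional. -/
theorem ramStmt : Vale.Agent.P284.H213.MF.RamStmt := ramStmt_of potStmt

end Vale.Agent.P284.H383
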