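import Vale.Agent.P272.K.Stmt
import Mathlib.Analysis.Calculus.InverseFunctionTheorem.ApproximatesLinearOn
import Mathlib.Analysis.Complex.CauchyIntegral
import Mathlib.Analysis.Complex.Schwarz
import Mathlib.LinearAlgebra.Matrix.AbsoluteValue

/-!
# P284 (helper383), module RAM: a quantitative inverse function theorem

If `G : ℂᵖ → ℂᵖ` is holomorphic on the ball `B(z₁, s)` and `|G - G(z₁)| ≤ 1` there, every point at
distance less than `c (sᵖ |det DG(z₁)|)²` from `G(z₁)` is the image of a point of the ball at which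
`DG` is invertible.
-/

open scoped Topology ContDiff NNReal
open Filter Set Metric

noncomputable section

namespace Vale.Agent.P284.H383

open Vale.Agent.P272.K

variable {p : ℕ}

/-- the norm as an absolute value -/
def absC : AbsoluteValue ℂ ℝ where
  toFun z := ‖z‖
  map_mul' := norm_mul
  nonneg' := norm_nonneg
  eq_zero' _ := norm_eq_zero
  add_le' := norm_add_le

lemma det_le_of (M : Matrix (Fin p) (Fin p) ℂ) (h : ∀ i j, ‖M i j‖ ≤ 1) :
    ‖M.det‖ ≤ p.factorial := by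
  have := Matrix.det_le (A := M) (abv := absC) (x := (1 : ℝ)) h
  rw [one_pow, Fintype.card_fin, nsmul_eq_mul, mul_one] at this
  exact this

/-- the matrix of a linear map -/
def mat (A : Cm p →L[ℂ] Cm p) : Matrix (Fin p) (Fin p) ℂ :=
  Matrix.of fun i j => A (Pi.single j 1) i

lemma mat_eq (A : Cm p →L[ℂ] Cm p) : mat A = LinearMap.toMatrix' (A : Cm p →ₗ[ℂ] Cm p) := by
  ext i j
  simp [mat, LinearMap.toMatrix'_apply]

lemma det_mat (A : Cm p →L[ℂ] Cm p) : (mat A).det = A.det := by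
  rw [mat_eq, LinearMap.det_toMatrix']

lemma mat_mulVec (A : Cm p →L[ℂ] Cm p) (v : Cm p) : (mat A).mulVec v = A v := by
  rw [mat_eq, LinearMap.toMatrix'_mulVec]
  rfl

lemma norm_mat_le (A : Cm p →L[ℂ] Cm p) (hA : ‖A‖ ≤ 1) (i j : Fin p) : ‖mat A i j‖ ≤ 1 := by
  have h1 : ‖A (Pi.single j 1)‖ ≤ ‖A‖ * ‖(Pi.single j 1 : Cm p)‖ := A.le_opNorm _
  have h2 : ‖(Pi.single j 1 : Cm p)‖ ≤ 1 := by
    rw [Pi.norm_single]; simp
  have h3 : ‖mat A i j‖ ≤ ‖A (Pi.single j 1)‖ := norm_le_pi_norm _ i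
  have h4 : ‖A‖ * ‖(Pi.single j 1 : Cm p)‖ ≤ 1 * 1 :=
    mul_le_mul hA h2 (norm_nonneg _) zero_le_one
  linarith

/-- lower bound `|A v| ≥ |det A| |v| / (p p!)` for `|A| ≤ 1` -/
lemma det_mul_norm_le (A : Cm p →L[ℂ] Cm p) (hA : ‖A‖ ≤ 1) (v : Cm p) :
    ‖A.det‖ * ‖v‖ ≤ (p * p.factorial : ℝ) * ‖A v‖ := by
  have h1 : (mat A).adjugate.mulVec (A v) = A.det • v := by
    rw [← mat_mulVec, Matrix.mulVec_mulVec, Matrix.adjugate_mul, det_mat, Matrix.smul_mulVec,
      Matrix.one_mulVec]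
  have h2 : ∀ i j, ‖(mat A).adjugate i j‖ ≤ p.factorial := by
    intro i j
    rw [Matrix.adjugate_apply]
    refine det_le_of _ fun a b => ?_
    by_cases ha : a = j
    · subst ha
      rw [Matrix.updateRow_self]
      by_cases hb : b = i
      · subst hb; simp
      · simp [Pi.single_apply, hb]
    · rw [Matrix.updateRow_ne ha]
      exact norm_mat_le A hA a b
  have h3 : ‖A.det • v‖ ≤ (p * p.factorial : ℝ) * ‖A v‖ := by
    rw [← h1, pi_norm_le_iff_of_nonneg (by positivity)]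
    intro i
    rw [Matrix.mulVec, dotProduct]
    refine (norm_sum_le _ _).trans ?_
    have : ∀ j ∈ Finset.univ, ‖(mat A).adjugate i j * A v j‖ ≤ (p.factorial : ℝ) * ‖A v‖ := by
      intro j _
      rw [norm_mul]
      exact mul_le_mul (h2 i j) (norm_le_pi_norm _ j) (norm_nonneg _) (by positivity)
    refine (Finset.sum_le_sum this).trans ?_
    rw [Finset.sum_const, Finset.card_univ, Fintype.card_fin, nsmul_eq_mul]
    exact le_of_eq (by ring)
  rwa [norm_smul] at h3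

lemma norm_det_le_one (A : Cm p →L[ℂ] Cm p) (hA : ‖A‖ ≤ 1) : ‖A.det‖ ≤ p.factorial := by
  rw [← det_mat]
  exact det_le_of _ fun i j => norm_mat_le A hA i j

/-- the derivative is Lipschitz at the centre -/
lemma norm_fderiv_sub_le {G : Cm p → Cm p} (hG : DifferentiableOn ℂ G (ball 0 1))
    (hm : MapsTo G (ball 0 1) (closedBall (G 0) 1)) {x : Cm p} (hx : ‖x‖ < 1 / 2) :
    ‖fderiv ℂ G x - fderiv ℂ G 0‖ ≤ 10 * ‖x‖ := by
  set A := fderiv ℂ G 0 with hA
  have hA1 : ‖A‖ ≤ 1 := by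
    have := Complex.norm_fderiv_le_div_of_mapsTo_ball hG hm zero_lt_one
    simpa using this
  have h0 : (0 : Cm p) ∈ ball (0 : Cm p) 1 := mem_ball_self zero_lt_one
  have hGa : ∀ y ∈ ball (0 : Cm p) 1, DifferentiableAt ℂ G y := fun y hy =>
    hG.differentiableAt (isOpen_ball.mem_nhds hy)
  set h : Cm p → Cm p := fun y => G y - A y with hh
  have hhd : DifferentiableOn ℂ h (ball 0 1) := hG.sub A.differentiable.differentiableOn
  have hh0 : h 0 = G 0 := by simp [hh]
  have hmh : MapsTo h (ball 0 1) (closedBall (h 0) 2) := by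
    intro y hy
    rw [mem_closedBall, dist_eq_norm, hh0]
    have h1 : ‖G y - G 0‖ ≤ 1 := by
      have := hm hy
      rwa [mem_closedBall, dist_eq_norm] at this
    have h2 : ‖A y‖ ≤ 1 := by
      have h3 := A.le_opNorm y
      have h4 : ‖y‖ < 1 := by simpa using hy
      nlinarith [norm_nonneg y, norm_nonneg A]
    calc ‖h y - G 0‖ = ‖(G y - G 0) - A y‖ := by
          congr 1; show G y - A y - G 0 = G y - G 0 - A y; abel
      _ ≤ ‖G y - G 0‖ + ‖A y‖ := norm_sub_le _ _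
      _ ≤ 2 := by linarith
  have ho : (fun y => h y - h 0) =o[𝓝 0] (fun y => ‖y - 0‖ ^ 1) := by
    have h1 := (hGa 0 h0).hasFDerivAt.isLittleO
    have h2 : (fun y => h y - h 0) = fun y => G y - G 0 - A (y - 0) := by
      funext y
      simp only [hh, sub_zero, map_zero]
      abel
    rw [h2]
    simpa using h1.norm_right
  have hq : ∀ y ∈ ball (0 : Cm p) 1, ‖h y - h 0‖ ≤ 2 * ‖y‖ ^ 2 := by
    intro y hy
    have := Complex.dist_le_mul_div_pow_of_mapsTo_ball_of_isLittleO (n := 1) hhd hmh ho hy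
    simpa [dist_eq_norm] using this
  have hfd : ∀ y ∈ ball (0 : Cm p) 1, fderiv ℂ h y = fderiv ℂ G y - A := by
    intro y hy
    rw [hh, fderiv_fun_sub (hGa y hy) A.differentiableAt, A.fderiv]
  have hxb : x ∈ ball (0 : Cm p) 1 := by
    rw [mem_ball_zero_iff]; linarith
  rcases eq_or_ne x 0 with rfl | hx0
  · simp [hA]
  have hx0' : 0 < ‖x‖ := norm_pos_iff.2 hx0
  have hsub : ball x ‖x‖ ⊆ ball (0 : Cm p) 1 := by
    intro y hy
    rw [mem_ball, dist_eq_norm] at hy
    rw [mem_ball_zero_iff]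
    have : ‖y‖ ≤ ‖y - x‖ + ‖x‖ := by simpa using norm_add_le (y - x) x
    linarith
  have hm2 : MapsTo h (ball x ‖x‖) (closedBall (h x) (10 * ‖x‖ ^ 2)) := by
    intro y hy
    have hy1 := hsub hy
    rw [mem_ball, dist_eq_norm] at hy
    have h3 : ‖y‖ ≤ ‖y - x‖ + ‖x‖ := by simpa using norm_add_le (y - x) x
    have h4 := hq y hy1
    have h5 := hq x hxb
    rw [mem_closedBall, dist_eq_norm]
    have h6 : ‖h y - h x‖ ≤ ‖h y - h 0‖ + ‖h x - h 0‖ := by
      have := norm_sub_le (h y - h 0) (h x - h 0)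
      simpa using this
    have h7 : ‖y‖ ^ 2 ≤ (2 * ‖x‖) ^ 2 := by
      apply pow_le_pow_left₀ (norm_nonneg _); linarith
    nlinarith
  have h8 := Complex.norm_fderiv_le_div_of_mapsTo_ball (hhd.mono hsub) hm2 hx0'
  rw [hfd x hxb] at h8
  calc ‖fderiv ℂ G x - A‖ ≤ 10 * ‖x‖ ^ 2 / ‖x‖ := h8
    _ = 10 * ‖x‖ := by field_simp

/-- constant of the inverse function theorem -/
def cq (p : ℕ) : ℝ := 1 / (80 * (p * p.factorial) ^ 2)

lemma cq_pos (hp : 1 ≤ p) : 0 < cq p := by
  have := Nat.factorial_pos p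
  unfold cq
  positivity

/-- quantitative inverse function theorem, unit ball -/
theorem surj_unit (hp : 1 ≤ p) {G : Cm p → Cm p} (hG : DifferentiableOn ℂ G (ball 0 1))
    (hm : MapsTo G (ball 0 1) (closedBall (G 0) 1)) {t : Cm p}
    (ht : ‖t - G 0‖ ≤ cq p * ‖(fderiv ℂ G 0).det‖ ^ 2) (hJ : (fderiv ℂ G 0).det ≠ 0) :
    ∃ x ∈ ball (0 : Cm p) 1, G x = t ∧ (fderiv ℂ G x).det ≠ 0 := by
  set A := fderiv ℂ G 0 with hA
  have hA1 : ‖A‖ ≤ 1 := by
    have := Complex.norm_fderiv_le_div_of_mapsTo_ball hG hm zero_lt_one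
    simpa using this
  set j : ℝ := ‖A.det‖ with hj
  have hj0 : 0 < j := norm_pos_iff.2 hJ
  set F : ℝ := p * p.factorial with hF
  have hp1 : (1 : ℝ) ≤ p := by exact_mod_cast hp
  have hf1 : (1 : ℝ) ≤ p.factorial := by exact_mod_cast Nat.factorial_pos p
  have hF0 : 1 ≤ F := by rw [hF]; nlinarith
  have hjF : j ≤ F := by
    have := norm_det_le_one A hA1
    rw [hF]; nlinarith
  have hlow : ∀ v, j * ‖v‖ ≤ F * ‖A v‖ := fun v => det_mul_norm_le A hA1 v
  -- radius
  set r : ℝ := j / (40 * F) with hr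
  have hr0 : 0 < r := by positivity
  have hr1 : r ≤ 1 / 40 := by
    rw [hr, div_le_div_iff₀ (by positivity) (by norm_num)]
    nlinarith
  have hcb : closedBall (0 : Cm p) r ⊆ ball 0 1 := closedBall_subset_ball (by linarith)
  have happ : ApproximatesLinearOn G A (closedBall 0 r) (Real.toNNReal (10 * r)) := by
    intro x hx y hy
    rw [Real.coe_toNNReal _ (by positivity)]
    apply Convex.norm_image_sub_le_of_norm_fderiv_le' (𝕜 := ℂ) (s := closedBall (0 : Cm p) r)
      (f := G) (φ := A) (C := 10 * r)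
      (fun z hz => hG.differentiableAt (isOpen_ball.mem_nhds (hcb hz))) _
      (convex_closedBall _ _) hy hx
    intro z hz
    have hz' : ‖z‖ ≤ r := by simpa using hz
    exact (norm_fderiv_sub_le hG hm (by linarith)).trans (by linarith)
  -- the inverse
  have hunit : IsUnit A.det := isUnit_iff_ne_zero.2 hJ
  have hinj : Function.Injective A := by
    intro a b hab
    have h1 := hlow (a - b)
    rw [map_sub, hab, sub_self, norm_zero, mul_zero] at h1
    have h2 : ‖a - b‖ ≤ 0 := by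
      by_contra hcon
      push Not at hcon
      have := mul_pos hj0 hcon
      linarith
    exact sub_eq_zero.1 (norm_le_zero_iff.1 h2)
  have hsur : Function.Surjective A :=
    LinearMap.surjective_of_injective (f := (A : Cm p →ₗ[ℂ] Cm p)) hinj
  choose B hB using hsur
  have hF1 : 0 < F := by linarith
  set N : ContinuousLinearMap.NonlinearRightInverse A :=
    { toFun := B
      nnnorm := Real.toNNReal (F / j)
      bound' := by
        intro y
        rw [Real.coe_toNNReal _ (by positivity)]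
        have h1 := hlow (B y)
        rw [hB] at h1
        rw [div_mul_eq_mul_div, le_div_iff₀ hj0]
        linarith
      right_inv' := hB } with hN
  have hsurj := happ.surjOn_closedBall_of_nonlinearRightInverse N hr0.le (b := 0) Subset.rfl
  have hNn : (N.nnnorm : ℝ) = F / j := by
    show ((Real.toNNReal (F / j) : ℝ≥0) : ℝ) = F / j
    rw [Real.coe_toNNReal _ (by positivity)]
  have hrad : cq p * j ^ 2 ≤ ((N.nnnorm : ℝ)⁻¹ - (Real.toNNReal (10 * r) : ℝ)) * r := by
    rw [hNn, Real.coe_toNNReal _ (by positivity), cq, ← hF, hr, inv_div]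
    have h1 : (j / F - 10 * (j / (40 * F))) * (j / (40 * F)) = (3 / 160) * (j ^ 2 / F ^ 2) := by
      field_simp
      norm_num
    have h2 : 1 / (80 * F ^ 2) * j ^ 2 = (1 / 80) * (j ^ 2 / F ^ 2) := by
      field_simp
    rw [h1, h2]
    have h3 : 0 ≤ j ^ 2 / F ^ 2 := by positivity
    nlinarith
  have htm : t ∈ closedBall (G 0) (((N.nnnorm : ℝ)⁻¹ - (Real.toNNReal (10 * r) : ℝ)) * r) := by
    rw [mem_closedBall, dist_eq_norm]
    exact ht.trans hrad
  obtain ⟨x, hx, hxt⟩ := hsurj htm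
  refine ⟨x, hcb hx, hxt, fun hdet => ?_⟩
  have hx' : ‖x‖ ≤ r := by simpa using hx
  have hdet' : LinearMap.det ((fderiv ℂ G x : Cm p →L[ℂ] Cm p) : Cm p →ₗ[ℂ] Cm p) = 0 := hdet
  have hker := LinearMap.bot_lt_ker_of_det_eq_zero hdet'
  obtain ⟨v, hv, hv0⟩ := (Submodule.ne_bot_iff _).1 (bot_lt_iff_ne_bot.1 hker)
  have hv1 : fderiv ℂ G x v = 0 := by simpa using hv
  have h1 : ‖A v‖ ≤ 10 * r * ‖v‖ := by
    have h2 : A v = -((fderiv ℂ G x - A) v) := by
      rw [sub_apply, hv1]; simp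
    rw [h2, norm_neg]
    refine ((fderiv ℂ G x - A).le_opNorm v).trans ?_
    apply mul_le_mul_of_nonneg_right _ (norm_nonneg _)
    exact (norm_fderiv_sub_le hG hm (by linarith)).trans (by linarith)
  have h2 := hlow v
  have h3 : 0 < ‖v‖ := norm_pos_iff.2 hv0
  have h4 : F * (10 * r * ‖v‖) = (1 / 4) * (j * ‖v‖) := by
    rw [hr]; field_simp; norm_num
  have h5 : F * ‖A v‖ ≤ F * (10 * r * ‖v‖) := mul_le_mul_of_nonneg_left h1 hF1.le
  have h6 : 0 < j * ‖v‖ := mul_pos hj0 h3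
  linarith

/-- **Quantitative inverse function theorem.** -/
theorem surj_ball (hp : 1 ≤ p) {G : Cm p → Cm p} {z₁ : Cm p} {s : ℝ} (hs : 0 < s)
    (hG : DifferentiableOn ℂ G (ball z₁ s)) (hm : ∀ z ∈ ball z₁ s, ‖G z - G z₁‖ ≤ 1)
    {t : Cm p} (ht : ‖t - G z₁‖ ≤ cq p * (s ^ p * ‖(fderiv ℂ G z₁).det‖) ^ 2)
    (hJ : (fderiv ℂ G z₁).det ≠ 0) :
    ∃ z ∈ ball z₁ s, G z = t ∧ (fderiv ℂ G z).det ≠ 0 := by
  set a : Cm p → Cm p := fun x => z₁ + (s : ℂ) • x with ha
  have hs0 : (s : ℂ) ≠ 0 := by exact_mod_cast hs.ne'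
  have hmaps : MapsTo a (ball 0 1) (ball z₁ s) := by
    intro x hx
    rw [mem_ball_zero_iff] at hx
    rw [mem_ball, dist_eq_norm, ha]
    have : z₁ + (s : ℂ) • x - z₁ = (s : ℂ) • x := by abel
    simp only [this, norm_smul, Complex.norm_real, Real.norm_eq_abs, abs_of_pos hs]
    nlinarith
  have hda : ∀ x, HasFDerivAt a ((s : ℂ) • ContinuousLinearMap.id ℂ (Cm p)) x := by
    intro x
    exact ((hasFDerivAt_id x).const_smul (s : ℂ)).const_add z₁
  have ha0 : a 0 = z₁ := by simp [ha]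
  set G' : Cm p → Cm p := fun x => G (a x) with hG'
  have hGd : DifferentiableOn ℂ G' (ball 0 1) :=
    hG.comp (fun x _ => (hda x).differentiableAt.differentiableWithinAt) hmaps
  have hfd : ∀ x ∈ ball (0 : Cm p) 1, (fderiv ℂ G' x).det = (s : ℂ) ^ p * (fderiv ℂ G (a x)).det := by
    intro x hx
    have h1 : DifferentiableAt ℂ G (a x) := hG.differentiableAt (isOpen_ball.mem_nhds (hmaps hx))
    have h2 : fderiv ℂ G' x = (s : ℂ) • fderiv ℂ G (a x) := by
      have h3 : HasFDerivAt G' ((fderiv ℂ G (a x)).comp ((s : ℂ) • ContinuousLinearMap.id ℂ (Cm p))) x :=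
        h1.hasFDerivAt.comp x (hda x)
      rw [h3.fderiv]
      ext v
      simp
    rw [h2, ← det_mat, ← det_mat]
    have h3 : mat ((s : ℂ) • fderiv ℂ G (a x)) = (s : ℂ) • mat (fderiv ℂ G (a x)) := by
      ext i j; simp [mat]
    rw [h3, Matrix.det_smul, Fintype.card_fin]
  have h0 : (0 : Cm p) ∈ ball (0 : Cm p) 1 := mem_ball_self zero_lt_one
  have hG0 : G' 0 = G z₁ := by simp [hG', ha0]
  have hm' : MapsTo G' (ball 0 1) (closedBall (G' 0) 1) := by
    intro x hx
    rw [mem_closedBall, dist_eq_norm, hG0]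
    exact hm _ (hmaps hx)
  have hdet0 : (fderiv ℂ G' 0).det = (s : ℂ) ^ p * (fderiv ℂ G z₁).det := by
    rw [hfd 0 h0, ha0]
  obtain ⟨x, hx, hxt, hxd⟩ := surj_unit hp hGd hm' (t := t) (by
      rw [hG0, hdet0, norm_mul, norm_pow, Complex.norm_real, Real.norm_eq_abs, abs_of_pos hs]
      exact ht) (by
      rw [hdet0]
      exact mul_ne_zero (pow_ne_zero _ hs0) hJ)
  refine ⟨a x, hmaps hx, hxt, fun hd => hxd ?_⟩
  rw [hfd x hx, hd, mul_zero]

end Vale.Agent.P284.H383
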