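import Vale.Agent.P284.H213.KL.SK1
import Vale.Agent.P272.K.Inv.Hess
import Vale.Agent.P253.R2.H380.Touch
import Vale.Agent.P268.Hol
import Vale.Agent.P272.K.N.MaxP
import Mathlib.Analysis.Complex.MeanValue

/-!
# P284 (helper383), module RAM: the lemma on discs

A function `W = ‖H‖² exp (-χ)` on the disc, `H` holomorphic and `-χ` strictly subharmonic with
Levi form at least `κ ‖F'‖²`, which is almost maximal at the centre: then the mean value of
`‖F‖²` is small.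
-/

open scoped Topology ContDiff ComplexConjugate ComplexOrder
open Filter Set Metric Real

noncomputable section

namespace Vale.Agent.P284.H383

open Vale.Agent.P272.K Vale.Agent.P284.H213.KL

lemma lev_nonpos_of_max {n : ℕ} {f : Cm n → ℝ} {z : Cm n} (hf : ContDiffAt ℝ 2 f z)
    (hmax : IsLocalMax f z) (β : Cm n) : lev f z β ≤ 0 := by
  have h := (N.neg_cHess_posSemidef hf hmax).dotProduct_mulVec_nonneg (fun k => conj (β k))
  have h2 : (0 : ℝ) ≤ (dotProduct (star (fun k => conj (β k)))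
      ((-cHess f z).mulVec (fun k => conj (β k)))).re := (Complex.le_def.1 h).1
  have h3 : (dotProduct (star (fun k => conj (β k)))
      ((-cHess f z).mulVec (fun k => conj (β k)))) =
      -(∑ j, ∑ k, cHess f z j k * β j * conj (β k)) := by
    simp only [dotProduct, Matrix.mulVec, Pi.star_apply, Matrix.neg_apply, Finset.mul_sum,
      ← Finset.sum_neg_distrib]
    refine Finset.sum_congr rfl fun j _ => Finset.sum_congr rfl fun k _ => ?_
    simp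
    ring
  rw [h3, Complex.neg_re] at h2
  unfold lev
  linarith

lemma lev_log_sq {n : ℕ} {F : Cm n → ℂ} {z : Cm n} (h : ContDiffAt ℂ ω F z) (h0 : F z ≠ 0)
    (β : Cm n) : lev (fun y => Real.log (‖F y‖ ^ 2)) z β = 0 := by
  unfold lev
  rw [cHess_log_norm_sq h h0]
  simp

/-- **The disc lemma.** -/
theorem disc_lemma {E : Type*} [NormedAddCommGroup E] [InnerProductSpace ℂ E] [CompleteSpace E]
    {s η κ : ℝ} (hs : 0 < s) {W χ : Cm 1 → ℝ} {H : Cm 1 → ℂ} {F : Cm 1 → E} {K : ℂ}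
    (hWc : Continuous W) (hH : ∀ ζ, ContDiffAt ℂ ω H ζ) (hF : ∀ ζ, AnalyticAt ℂ F ζ)
    (hW : ∀ ζ, H ζ ≠ 0 → W ζ = ‖H ζ‖ ^ 2 * Real.exp (-χ ζ)) (hW0 : ∀ ζ, H ζ = 0 → W ζ = 0)
    (hχ : ∀ ζ, H ζ ≠ 0 → ContDiffAt ℝ 2 χ ζ)
    (hlev : ∀ ζ, H ζ ≠ 0 → lev χ ζ 1 ≤ -κ * ‖fderiv ℂ F ζ 1‖ ^ 2)
    (hF0 : F 0 = 0) (hpos : 0 < W 0)
    (hbd : ∀ ζ : Cm 1, ‖ζ‖ ≤ s → W ζ ≤ W 0 * Real.exp ((K * ζ 0).re + η)) :
    κ * circleAverage (fun ξ : ℂ => ‖F (fun _ => ξ)‖ ^ 2) 0 s ≤ η := by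
  by_contra hcon
  push Not at hcon
  have hFc : Continuous F := continuous_iff_continuousAt.2 fun ζ => (hF ζ).continuousAt
  have hcc : Continuous fun ξ : ℂ => ‖F (fun _ => ξ)‖ ^ 2 :=
    (hFc.comp (continuous_pi fun _ => continuous_id)).norm.pow 2
  have havg : circleAverage (fun ξ : ℂ => η - κ * ‖F (fun _ => ξ)‖ ^ 2) 0 s < 0 := by
    have h1 : CircleIntegrable (fun _ : ℂ => η) 0 s := continuous_const.continuousOn.circleIntegrable'
    have h2 : CircleIntegrable (fun ξ : ℂ => κ * ‖F (fun _ => ξ)‖ ^ 2) 0 s :=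
      (continuous_const.mul hcc).continuousOn.circleIntegrable'
    rw [circleAverage_fun_sub h1 h2, circleAverage_const]
    have h3 : circleAverage (fun ξ : ℂ => κ * ‖F (fun _ => ξ)‖ ^ 2) 0 s =
        κ * circleAverage (fun ξ : ℂ => ‖F (fun _ => ξ)‖ ^ 2) 0 s := by
      have := circleAverage_fun_smul (a := κ) (f := fun ξ : ℂ => ‖F (fun _ => ξ)‖ ^ 2) (c := 0)
        (R := s)
      simpa [smul_eq_mul] using this
    rw [h3]; linarith
  obtain ⟨h, hh1, hh2⟩ := Vale.Agent.P253.R2.H380.exists_poly_majorant hs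
    (u := fun ξ : ℂ => η - κ * ‖F (fun _ => ξ)‖ ^ 2) (c := 0)
    (continuous_const.sub (continuous_const.mul hcc)).continuousOn havg
  set ε : ℝ := -(h.eval 0).re / (2 * s ^ 2) with hε
  have hε0 : 0 < ε := div_pos (by linarith) (by positivity)
  have hεs : ε * s ^ 2 = -(h.eval 0).re / 2 := by rw [hε]; field_simp
  set eh : Cm 1 → ℂ := fun ζ => Complex.exp (-(K * ζ 0 + h.eval (ζ 0)) / 2) with heh
  have heh_sq : ∀ ζ, ‖eh ζ‖ ^ 2 = Real.exp (-(K * ζ 0).re - (h.eval (ζ 0)).re) := by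
    intro ζ
    rw [heh]
    simp only
    rw [Complex.norm_exp, ← Real.exp_nat_mul]
    congr 1
    simp
    ring
  have hehd : Differentiable ℂ eh := by
    intro ζ
    have h1 : DifferentiableAt ℂ (fun ζ : Cm 1 => ζ 0) ζ := by fun_prop
    have h2 : DifferentiableAt ℂ (fun ζ : Cm 1 => h.eval (ζ 0)) ζ :=
      DifferentiableAt.comp (g := fun x : ℂ => h.eval x) ζ h.differentiable.differentiableAt h1
    simp only [heh, div_eq_mul_inv]
    exact (((h1.const_mul K).add h2).neg.mul_const ((2 : ℂ)⁻¹)).cexp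
  have hehan : ∀ ζ, ContDiffAt ℂ ω eh ζ := by
    intro ζ
    exact (Vale.Agent.P268.analyticAt_of_differentiableOn isOpen_univ hehd.differentiableOn
      (mem_univ ζ)).contDiffAt
  set M : Cm 1 → ℝ := fun ζ => W ζ * ‖eh ζ‖ ^ 2 *
    Real.exp (-κ * ‖F ζ‖ ^ 2 + ε * ‖ζ 0‖ ^ 2) with hM
  have hMc : Continuous M := by
    have h1 : Continuous eh := hehd.continuous
    have h2 : Continuous fun ζ : Cm 1 => ‖ζ 0‖ ^ 2 := by fun_prop
    exact (hWc.mul (h1.norm.pow 2)).mul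
      (((continuous_const.mul (hFc.norm.pow 2)).add (continuous_const.mul h2)).rexp)
  obtain ⟨ζ₀, hζ₀, hmax⟩ := (isCompact_closedBall (0 : Cm 1) s).exists_isMaxOn
    (nonempty_closedBall.2 hs.le) hMc.continuousOn
  have hM0 : M 0 = W 0 * Real.exp (-(h.eval 0).re) := by
    simp only [hM, heh_sq, hF0]
    simp
  have hM0le : M 0 ≤ M ζ₀ := hmax (mem_closedBall_self hs.le)
  have hMpos : 0 < M ζ₀ := lt_of_lt_of_le (by rw [hM0]; positivity) hM0le
  have hWpos : W ζ₀ ≠ 0 := by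
    intro h0
    simp only [hM, h0, zero_mul, lt_self_iff_false] at hMpos
  have hHne : H ζ₀ ≠ 0 := fun h0 => hWpos (hW0 _ h0)
  have hn0 : ∀ ζ : Cm 1, ‖ζ‖ = ‖ζ 0‖ := by
    intro ζ
    simp [Pi.norm_def]
  -- the maximum is not on the boundary
  have hint : ‖ζ₀‖ < s := by
    refine lt_of_le_of_ne (mem_closedBall_zero_iff.1 hζ₀) fun heq => ?_
    have h1 := hbd ζ₀ heq.le
    have h2 : ζ₀ 0 ∈ sphere (0 : ℂ) s := by
      rw [mem_sphere_zero_iff_norm, ← hn0, heq]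
    have h3 := hh1 _ h2
    have h4 : (fun _ : Fin 1 => ζ₀ 0) = ζ₀ := by
      funext i; fin_cases i; rfl
    simp only [h4] at h3
    have h5 : M ζ₀ ≤ W 0 * Real.exp ((K * ζ₀ 0).re + η) *
        Real.exp (-(K * ζ₀ 0).re - (h.eval (ζ₀ 0)).re) *
        Real.exp (-κ * ‖F ζ₀‖ ^ 2 + ε * ‖ζ₀ 0‖ ^ 2) := by
      simp only [hM, heh_sq]
      gcongr
    rw [mul_assoc, mul_assoc, ← Real.exp_add, ← Real.exp_add, ← hn0, heq] at h5
    have h6 : (K * ζ₀ 0).re + η + (-(K * ζ₀ 0).re - (h.eval (ζ₀ 0)).re +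
        (-κ * ‖F ζ₀‖ ^ 2 + ε * s ^ 2)) ≤ ε * s ^ 2 := by linarith
    have h7 : W 0 * Real.exp (-(h.eval 0).re) ≤ W 0 * Real.exp (ε * s ^ 2) := by
      rw [← hM0]
      refine hM0le.trans (h5.trans ?_)
      gcongr
    have h8 := Real.exp_le_exp.1 (le_of_mul_le_mul_left h7 hpos)
    rw [hεs] at h8
    linarith
  -- the logarithm of `M`
  set T : Cm 1 → ℝ := fun ζ => Real.log (‖H ζ * eh ζ‖ ^ 2) + ((-1) * χ ζ +
    ((-κ) * ‖F ζ‖ ^ 2 + ε * ‖ζ 0‖ ^ 2)) with hT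
  have hTM : ∀ ζ, H ζ ≠ 0 → Real.exp (T ζ) = M ζ := by
    intro ζ hζ
    have h1 : 0 < ‖H ζ * eh ζ‖ ^ 2 := by
      have : H ζ * eh ζ ≠ 0 := mul_ne_zero hζ (Complex.exp_ne_zero _)
      positivity
    simp only [hT, hM]
    rw [Real.exp_add, Real.exp_add, Real.exp_log h1, hW ζ hζ, norm_mul, mul_pow, neg_one_mul]
    ring
  have hHc : ContinuousAt H ζ₀ := (hH ζ₀).continuousAt
  have hTmax : IsLocalMax T ζ₀ := by
    have h1 : ∀ᶠ ζ in 𝓝 ζ₀, H ζ ≠ 0 := hHc.eventually_ne hHne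
    have h2 : ∀ᶠ ζ in 𝓝 ζ₀, ζ ∈ ball (0 : Cm 1) s :=
      isOpen_ball.mem_nhds (mem_ball_zero_iff.2 hint)
    filter_upwards [h1, h2] with ζ hζ1 hζ2
    have h3 : M ζ ≤ M ζ₀ := hmax (ball_subset_closedBall hζ2)
    rw [← hTM ζ hζ1, ← hTM ζ₀ hHne] at h3
    exact Real.exp_le_exp.1 h3
  -- smoothness
  have hHe : ContDiffAt ℂ ω (fun ζ => H ζ * eh ζ) ζ₀ := (hH ζ₀).mul (hehan ζ₀)
  have hHe0 : H ζ₀ * eh ζ₀ ≠ 0 := mul_ne_zero hHne (Complex.exp_ne_zero _)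
  have c1 : ContDiffAt ℝ 2 (fun ζ => Real.log (‖H ζ * eh ζ‖ ^ 2)) ζ₀ := by
    have h1 : ContDiffAt ℝ 2 (fun ζ => H ζ * eh ζ) ζ₀ :=
      (hHe.of_le (by simp)).restrict_scalars ℝ
    exact (h1.norm_sq ℝ).log (by positivity)
  have c2 : ContDiffAt ℝ 2 (fun ζ => (-1) * χ ζ) ζ₀ := contDiffAt_const.mul (hχ ζ₀ hHne)
  have c3 : ContDiffAt ℝ 2 (fun ζ => ‖F ζ‖ ^ 2) ζ₀ :=
    (contDiffAt_normSq (hF ζ₀)).of_le (by norm_cast)
  have c3' : ContDiffAt ℝ 2 (fun ζ => (-κ) * ‖F ζ‖ ^ 2) ζ₀ := contDiffAt_const.mul c3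
  have hid : AnalyticAt ℂ (fun ζ : Cm 1 => ζ 0) ζ₀ :=
    (ContinuousLinearMap.proj (R := ℂ) (φ := fun _ : Fin 1 => ℂ) 0).analyticAt ζ₀
  have c4 : ContDiffAt ℝ 2 (fun ζ : Cm 1 => ‖ζ 0‖ ^ 2) ζ₀ :=
    (contDiffAt_normSq hid).of_le (by norm_cast)
  have c4' : ContDiffAt ℝ 2 (fun ζ : Cm 1 => ε * ‖ζ 0‖ ^ 2) ζ₀ := contDiffAt_const.mul c4
  have hTc : ContDiffAt ℝ 2 T ζ₀ := c1.add (c2.add (c3'.add c4'))
  have hle := lev_nonpos_of_max hTc hTmax 1
  have e1 : lev T ζ₀ 1 = 0 + ((-1) * lev χ ζ₀ 1 + ((-κ) * ‖fderiv ℂ F ζ₀ 1‖ ^ 2 + ε * 1)) := by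
    rw [hT, lev_add c1 (c2.add (c3'.add c4')), lev_add c2 (c3'.add c4'), lev_add c3' c4',
      lev_const_mul (hχ ζ₀ hHne), lev_const_mul c3, lev_const_mul c4, lev_log_sq hHe hHe0,
      lev_normSq (hF ζ₀), lev_normSq hid]
    have e2 : fderiv ℂ (fun ζ : Cm 1 => ζ 0) ζ₀ 1 = 1 := by
      have := (ContinuousLinearMap.proj (R := ℂ) (φ := fun _ : Fin 1 => ℂ) 0).fderiv (x := ζ₀)
      have e3 : (fun ζ : Cm 1 => ζ 0) =
        ⇑(ContinuousLinearMap.proj (R := ℂ) (φ := fun _ : Fin 1 => ℂ) 0) := rfl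
      rw [e3, this]; rfl
    rw [e2]; simp
  have h9 := hlev ζ₀ hHne
  rw [e1] at hle
  linarith

/-- Cauchy's estimate for the square of a holomorphic function. -/
theorem cauchy_sq {f : ℂ → ℂ} (hf : Differentiable ℂ f) {s B : ℝ} (hs : 0 < s)
    (hB : circleAverage (fun ξ : ℂ => ‖f ξ‖ ^ 2) 0 s ≤ B) {w : ℂ} (hw : ‖w‖ ≤ s / 2) :
    ‖f w‖ ^ 2 ≤ 2 * B := by
  have hws : ‖w‖ < s := by linarith
  have h1 : circleAverage (fun z => ((z - 0) / (z - w)) • (f z ^ 2)) 0 s = f w ^ 2 :=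
    DiffContOnCl.circleAverage_smul_div (f := fun z => f z ^ 2) (hf.pow 2).diffContOnCl
      (by rw [mem_ball_zero_iff, abs_of_pos hs]; exact hws)
  have hne : ∀ z ∈ sphere (0 : ℂ) s, z - w ≠ 0 := by
    intro z hz h0
    rw [mem_sphere_zero_iff_norm] at hz
    rw [sub_eq_zero.1 h0] at hz
    linarith
  have hcont : ContinuousOn (fun z => ((z - 0) / (z - w)) • (f z ^ 2)) (sphere (0 : ℂ) |s|) := by
    rw [abs_of_pos hs]
    exact ((continuousOn_id.sub continuousOn_const).div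
      (continuousOn_id.sub continuousOn_const) hne).smul (hf.continuous.pow 2).continuousOn
  have hfc : Continuous fun z => 2 * ‖f z‖ ^ 2 := continuous_const.mul (hf.continuous.norm.pow 2)
  have h2 : ‖f w ^ 2‖ ≤ circleAverage (fun z => ‖((z - 0) / (z - w)) • (f z ^ 2)‖) 0 s := by
    rw [← h1, circleAverage_def, circleAverage_def, norm_smul, smul_eq_mul, norm_inv,
      Real.norm_of_nonneg two_pi_pos.le]
    exact mul_le_mul_of_nonneg_left
      (intervalIntegral.norm_integral_le_integral_norm two_pi_pos.le) (by positivity)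
  have h3 : circleAverage (fun z => ‖((z - 0) / (z - w)) • (f z ^ 2)‖) 0 s ≤
      circleAverage (fun z => 2 * ‖f z‖ ^ 2) 0 s := by
    refine circleAverage_mono hcont.norm.circleIntegrable' hfc.continuousOn.circleIntegrable' ?_
    intro z hz
    rw [abs_of_pos hs] at hz
    have hz' : ‖z‖ = s := mem_sphere_zero_iff_norm.1 hz
    rw [norm_smul, norm_pow, sub_zero, norm_div]
    have h4 : s / 2 ≤ ‖z - w‖ := by
      have := norm_sub_norm_le z w
      linarith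
    have h5 : ‖z‖ / ‖z - w‖ ≤ 2 := by
      rw [div_le_iff₀ (by linarith), hz']; linarith
    exact mul_le_mul_of_nonneg_right h5 (by positivity)
  have h4 : circleAverage (fun z => 2 * ‖f z‖ ^ 2) 0 s =
      2 * circleAverage (fun z => ‖f z‖ ^ 2) 0 s := by
    have := circleAverage_fun_smul (a := (2 : ℝ)) (f := fun ξ : ℂ => ‖f ξ‖ ^ 2) (c := 0) (R := s)
    simpa [smul_eq_mul] using this
  rw [norm_pow] at h2
  linarith

end Vale.Agent.P284.H383
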