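import Vale.Agent.P284.H383.Ram1
import Vale.Agent.P284.H383.Ram2
import Vale.Agent.P272.K.QN.H705.PullLoc

/-!
# P284 (helper383), module RAM: the core statement

An entire map `g : ℂᵖ → ℂ^q` for which `P ∘ g` is ramified along `g⁻¹ D`, `D` an effective divisor
whose potential `ψ` is strictly concave in the directions of `P`: then `P ∘ g` is degenerate.
-/

open scoped Topology ContDiff ComplexConjugate ComplexOrder
open Filter Set Metric Real

noncomputable section

namespace Vale.Agent.P284.H383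

open Vale.Agent.P272.K Vale.Agent.P284.H213.KL
open Vale.Agent.P272.K.QN (jm jm_holo dz_comp_F dzb_comp_F jm_mulVec)

/-- complex Hessian of a composition with a holomorphic map `ℂᴺ → ℂⁿ` -/
theorem cHess_comp_holo {N n : ℕ} {Φ : Cm N → Cm n} {z : Cm N} {g : Cm n → ℝ}
    (hg : ContDiffAt ℝ 2 g (Φ z)) (h : ContDiffAt ℂ ω Φ z) :
    cHess (fun y => g (Φ y)) z =
      (jm Φ z).transpose * cHess g (Φ z) * (jm Φ z).map (starRingEnd ℂ) := by
  have hF : ContDiffAt ℝ 2 (fun y => (g y : ℂ)) (Φ z) := ofReal_contDiffAt hg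
  have hev : ∀ᶠ y in 𝓝 z, ContDiffAt ℂ ω Φ y := h.eventually (by simp)
  have hev2 : ∀ᶠ y in 𝓝 z, ContDiffAt ℝ 2 (fun y => (g y : ℂ)) (Φ y) :=
    h.continuousAt.eventually (hF.eventually (by simp))
  ext j k
  rw [cHess_apply]
  have h1 : dzb k (fun y => ((g (Φ y) : ℝ) : ℂ)) =ᶠ[𝓝 z]
      fun y => ∑ q, dzb q (fun y => (g y : ℂ)) (Φ y) * cj (jm Φ y q k) := by
    filter_upwards [hev, hev2] with y hy hy2
    exact dzb_comp_F (f := fun y => (g y : ℂ)) (hy2.differentiableAt (by norm_num))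
      (hy.differentiableAt (by simp))
  rw [dz_congr h1]
  have hd1 : ∀ q, DifferentiableAt ℝ (fun y => dzb q (fun y => (g y : ℂ)) (Φ y)) z := by
    intro q
    exact (differentiableAt_dzb hF).comp z ((h.differentiableAt (by simp)).restrictScalars ℝ)
  have hd2 : ∀ q, DifferentiableAt ℝ (fun y => jm Φ y q k) z := fun q =>
    ((jm_holo h q k).differentiableAt (by simp)).restrictScalars ℝ
  have hd3 : ∀ q, DifferentiableAt ℝ (fun y => cj (jm Φ y q k)) z := by
    intro q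
    exact Complex.conjCLE.differentiableAt.comp z (hd2 q)
  rw [dz_sum (F := fun q y => dzb q (fun y => (g y : ℂ)) (Φ y) * cj (jm Φ y q k)) Finset.univ
    fun q _ => (hd1 q).mul (hd3 q)]
  have h2 : ∀ q, dz j (fun y => dzb q (fun y => (g y : ℂ)) (Φ y) * cj (jm Φ y q k)) z =
      ∑ p, jm Φ z p j * cHess g (Φ z) p q * cj (jm Φ z q k) := by
    intro q
    rw [dz_mul (hd1 q) (hd3 q), dz_cj (hd2 q),
      dzb_of_holo ((jm_holo h q k).differentiableAt (by simp)),
      dz_comp_F (differentiableAt_dzb hF) (h.differentiableAt (by simp))]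
    simp only [cj, map_zero, mul_zero, add_zero]
    rw [Finset.sum_mul]
    refine Finset.sum_congr rfl fun p _ => ?_
    rw [cHess_apply]; ring
  rw [Finset.sum_congr rfl fun q _ => h2 q]
  simp only [Matrix.mul_apply, Matrix.transpose_apply, Matrix.map_apply, Finset.sum_mul]

/-- Levi form of a composition with a holomorphic map -/
lemma lev_comp_holo {N n : ℕ} {Φ : Cm N → Cm n} {z : Cm N} {g : Cm n → ℝ}
    (hg : ContDiffAt ℝ 2 g (Φ z)) (h : ContDiffAt ℂ ω Φ z) (β : Cm N) :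
    lev (fun y => g (Φ y)) z β = lev g (Φ z) (fderiv ℂ Φ z β) := by
  unfold lev
  rw [cHess_comp_holo hg h]
  congr 1
  have hd : DifferentiableAt ℂ Φ z := h.differentiableAt (by simp)
  simp only [jm_mulVec hd, map_sum, map_mul, Matrix.mul_apply, Matrix.transpose_apply,
    Matrix.map_apply, Finset.sum_mul, Finset.mul_sum]
  -- both sides are quadruple sums
  have e1 : ∀ (f : Fin N → Fin N → Fin n → Fin n → ℂ),
      ∑ j, ∑ k, ∑ b, ∑ a, f j k b a = ∑ a, ∑ b, ∑ k, ∑ j, f j k b a := by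
    intro f
    calc ∑ j, ∑ k, ∑ b, ∑ a, f j k b a = ∑ j, ∑ k, ∑ a, ∑ b, f j k b a := by
          refine Finset.sum_congr rfl fun j _ => Finset.sum_congr rfl fun k _ => ?_
          exact Finset.sum_comm
      _ = ∑ j, ∑ a, ∑ k, ∑ b, f j k b a := by
          refine Finset.sum_congr rfl fun j _ => ?_
          exact Finset.sum_comm
      _ = ∑ a, ∑ j, ∑ k, ∑ b, f j k b a := Finset.sum_comm
      _ = ∑ a, ∑ j, ∑ b, ∑ k, f j k b a := by
          refine Finset.sum_congr rfl fun a _ => Finset.sum_congr rfl fun j _ => ?_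
          exact Finset.sum_comm
      _ = ∑ a, ∑ b, ∑ j, ∑ k, f j k b a := by
          refine Finset.sum_congr rfl fun a _ => ?_
          exact Finset.sum_comm
      _ = ∑ a, ∑ b, ∑ k, ∑ j, f j k b a := by
          refine Finset.sum_congr rfl fun a _ => Finset.sum_congr rfl fun b _ => ?_
          exact Finset.sum_comm
  rw [e1]
  refine Finset.sum_congr rfl fun a _ => Finset.sum_congr rfl fun b _ => ?_
  refine Finset.sum_congr rfl fun k _ => Finset.sum_congr rfl fun j _ => ?_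
  ring

lemma omega_of_differentiable {n m : ℕ} {f : Cm n → Cm m} (hf : Differentiable ℂ f) (z : Cm n) :
    ContDiffAt ℂ ω f z :=
  (Vale.Agent.P268.analyticAt_of_differentiableOn isOpen_univ hf.differentiableOn
    (mem_univ z)).contDiffAt

section core
variable {p q : ℕ} {D : Set (Cm q)} {ψ : Cm q → ℝ} {P : Cm q →L[ℂ] Cm p} {c C₀ C₁ δ : ℝ}
  {g : Cm p → Cm q}

/-- the Jacobian determinant of `P ∘ g` -/
def Jd (P : Cm q →L[ℂ] Cm p) (g : Cm p → Cm q) (z : Cm p) : ℂ :=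
  (fderiv ℂ (fun y => P (g y)) z).det

open Classical in
/-- the function `‖J‖² exp (-δ/2 ψ)` -/
def Ef (P : Cm q →L[ℂ] Cm p) (g : Cm p → Cm q) (ψ : Cm q → ℝ) (δ : ℝ) (z : Cm p) : ℝ :=
  if Jd P g z = 0 then 0 else ‖Jd P g z‖ ^ 2 * Real.exp (-(δ / 2 * ψ (g z)))

lemma Ef_zero {z : Cm p} (h : Jd P g z = 0) : Ef P g ψ δ z = 0 := if_pos h

lemma Ef_ne {z : Cm p} (h : Jd P g z ≠ 0) :
    Ef P g ψ δ z = ‖Jd P g z‖ ^ 2 * Real.exp (-(δ / 2 * ψ (g z))) := if_neg h

lemma Ef_nonneg (z : Cm p) : 0 ≤ Ef P g ψ δ z := by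
  by_cases h : Jd P g z = 0
  · rw [Ef_zero h]
  · rw [Ef_ne h]; positivity

lemma comp_differentiable (hg : Differentiable ℂ g) : Differentiable ℂ fun y => P (g y) :=
  fun z => P.differentiableAt.comp z (hg z)

/-- the determinant of a holomorphic family of endomorphisms is holomorphic -/
lemma Jd_omega (hg : Differentiable ℂ g) (z : Cm p) : ContDiffAt ℂ ω (Jd P g) z := by
  have h1 : ContDiffAt ℂ ω (fun y => P (g y)) z := omega_of_differentiable (comp_differentiable hg) z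
  have h2 : ContDiffAt ℂ ω (fderiv ℂ fun y => P (g y)) z := h1.fderiv_right (m := ω) (by exact le_top)
  have h3 : Jd P g = fun y => (mat (fderiv ℂ (fun y => P (g y)) y)).det := by
    funext y; rw [Jd, det_mat]
  rw [h3]
  simp only [Matrix.det_apply]
  refine ContDiffAt.sum fun σ _ => ?_
  refine ContDiffAt.const_smul _ ?_
  refine contDiffAt_prod fun i _ => ?_
  have h4 : ContDiffAt ℂ ω (fun y => fderiv ℂ (fun y => P (g y)) y (Pi.single i 1)) z :=
    h2.clm_apply contDiffAt_const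
  exact (contDiffAt_pi.1 h4) (σ i)

lemma Jd_continuous (hg : Differentiable ℂ g) : Continuous (Jd P g) :=
  continuous_iff_continuousAt.2 fun z => (Jd_omega hg z).continuousAt

/-- the lower bound for `ψ` at a point where `P ∘ g` is a local isomorphism -/
lemma qbound (hp : 1 ≤ p) 
    (hloj : ∀ t ∉ D, ∀ r : ℝ, 0 < r → (∀ y ∈ D, r ≤ ‖y - t‖) → r ≤ C₁ * Real.exp (δ * ψ t))
    (hker : ∀ y ∈ D, ∀ k, P k = 0 → y + k ∈ D) (hg : Differentiable ℂ g)
    (hcrit : ∀ z, g z ∈ D → Jd P g z = 0) {z₁ : Cm p} (hJ : Jd P g z₁ ≠ 0) {s : ℝ} (hs : 0 < s)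
    (hb : ∀ z ∈ ball z₁ s, ‖P (g z) - P (g z₁)‖ ≤ 1) :
    cq p / (‖P‖ + 1) * (s ^ p * ‖Jd P g z₁‖) ^ 2 ≤ C₁ * Real.exp (δ * ψ (g z₁)) := by
  have ht : g z₁ ∉ D := fun h => hJ (hcrit _ h)
  have hcq := cq_pos hp
  have hJ0 : 0 < ‖Jd P g z₁‖ := norm_pos_iff.2 hJ
  have hP : 0 < ‖P‖ + 1 := by positivity
  refine hloj _ ht _ (by positivity) fun y hy => ?_
  by_contra hcon
  push Not at hcon
  have h1 : ‖P y - P (g z₁)‖ ≤ cq p * (s ^ p * ‖(fderiv ℂ (fun y => P (g y)) z₁).det‖) ^ 2 := by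
    rw [← map_sub]
    calc ‖P (y - g z₁)‖ ≤ ‖P‖ * ‖y - g z₁‖ := P.le_opNorm _
      _ ≤ (‖P‖ + 1) * (cq p / (‖P‖ + 1) * (s ^ p * ‖Jd P g z₁‖) ^ 2) :=
          mul_le_mul (by linarith) hcon.le (norm_nonneg _) hP.le
      _ = _ := by unfold Jd; field_simp
  obtain ⟨z, _, hz2, hz3⟩ := surj_ball hp (G := fun y => P (g y)) hs
    (comp_differentiable hg).differentiableOn hb h1 hJ
  refine hz3 (hcrit z ?_)
  have h2 : y + (g z - y) ∈ D := hker y hy _ (by rw [map_sub, sub_eq_zero]; exact hz2)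
  simpa using h2

theorem Ef_continuous (hp : 1 ≤ p)
    (hψ : ∀ t ∉ D, ContDiffAt ℝ 2 ψ t)
    (hloj : ∀ t ∉ D, ∀ r : ℝ, 0 < r → (∀ y ∈ D, r ≤ ‖y - t‖) → r ≤ C₁ * Real.exp (δ * ψ t))
    (hker : ∀ y ∈ D, ∀ k, P k = 0 → y + k ∈ D) (hg : Differentiable ℂ g)
    (hcrit : ∀ z, g z ∈ D → Jd P g z = 0) : Continuous (Ef P g ψ δ) := by
  rw [continuous_iff_continuousAt]
  intro z₀
  by_cases h0 : Jd P g z₀ = 0
  · have hGc : ContinuousAt (fun y => P (g y)) z₀ := (comp_differentiable hg).continuous.continuousAt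
    obtain ⟨s, hs, hsb⟩ := Metric.continuousAt_iff.1 hGc (1 / 2) (by norm_num)
    set a : ℝ := cq p / (‖P‖ + 1) * ((s / 2) ^ p) ^ 2 with ha
    have hcq := cq_pos hp
    have ha0 : 0 < a := by positivity
    set B : ℝ := Real.sqrt (|C₁| / a) with hB
    have hbd : ∀ z ∈ ball z₀ (s / 2), Ef P g ψ δ z ≤ ‖Jd P g z‖ * B := by
      intro z hz
      by_cases h1 : Jd P g z = 0
      · rw [Ef_zero h1, h1]; simp
      · have h2 : ∀ z' ∈ ball z (s / 2), ‖P (g z') - P (g z)‖ ≤ 1 := by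
          intro z' hz'
          have h3 : dist z' z₀ < s := by
            have := dist_triangle z' z z₀
            rw [mem_ball] at hz hz'
            linarith
          have h4 : dist z z₀ < s := by rw [mem_ball] at hz; linarith
          have h5 := hsb h3
          have h6 := hsb h4
          have h7 := dist_triangle_right (P (g z')) (P (g z)) (P (g z₀))
          rw [← dist_eq_norm]
          linarith
        have h3 := qbound hp hloj hker hg hcrit h1 (half_pos hs) h2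
        rw [mul_pow, ← mul_assoc, ← ha] at h3
        have hJ0 : 0 < ‖Jd P g z‖ := norm_pos_iff.2 h1
        have h4 : ‖Jd P g z‖ * Real.exp (-(δ / 2 * ψ (g z))) ≤ B := by
          rw [hB]
          refine Real.le_sqrt_of_sq_le ?_
          rw [mul_pow, ← Real.exp_nat_mul, le_div_iff₀ ha0]
          have h5 : Real.exp (((2 : ℕ) : ℝ) * -(δ / 2 * ψ (g z))) * Real.exp (δ * ψ (g z)) = 1 := by
            rw [← Real.exp_add, ← Real.exp_zero]
            congr 1
            push_cast; ring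
          have h6 : a * ‖Jd P g z‖ ^ 2 * Real.exp (((2 : ℕ) : ℝ) * -(δ / 2 * ψ (g z))) ≤
              C₁ * Real.exp (δ * ψ (g z)) * Real.exp (((2 : ℕ) : ℝ) * -(δ / 2 * ψ (g z))) :=
            mul_le_mul_of_nonneg_right h3 (Real.exp_pos _).le
          calc ‖Jd P g z‖ ^ 2 * Real.exp (((2 : ℕ) : ℝ) * -(δ / 2 * ψ (g z))) * a
              = a * ‖Jd P g z‖ ^ 2 * Real.exp (((2 : ℕ) : ℝ) * -(δ / 2 * ψ (g z))) := by ring
            _ ≤ _ := h6
            _ = C₁ * (Real.exp (((2 : ℕ) : ℝ) * -(δ / 2 * ψ (g z))) * Real.exp (δ * ψ (g z))) := by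
                ring
            _ = C₁ := by rw [h5, mul_one]
            _ ≤ |C₁| := le_abs_self _
        rw [Ef_ne h1, pow_two, mul_assoc]
        exact mul_le_mul_of_nonneg_left h4 hJ0.le
    have hlim : Tendsto (fun z => ‖Jd P g z‖ * B) (𝓝 z₀) (𝓝 0) := by
      have h1 : Tendsto (fun z => ‖Jd P g z‖) (𝓝 z₀) (𝓝 0) := by
        have := (Jd_continuous (P := P) hg).norm.tendsto z₀
        rwa [h0, norm_zero] at this
      simpa using h1.mul_const B
    rw [ContinuousAt, Ef_zero h0]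
    refine squeeze_zero' (Eventually.of_forall fun z => Ef_nonneg z) ?_ hlim
    filter_upwards [ball_mem_nhds z₀ (half_pos hs)] with z hz
    exact hbd z hz
  · have ht : g z₀ ∉ D := fun h => h0 (hcrit _ h)
    have h1 : ContinuousAt (fun z => ‖Jd P g z‖ ^ 2 * Real.exp (-(δ / 2 * ψ (g z)))) z₀ := by
      have h2 : ContinuousAt (fun z => ψ (g z)) z₀ :=
        ContinuousAt.comp (g := ψ) (hψ _ ht).continuousAt hg.continuous.continuousAt
      exact ((Jd_continuous (P := P) hg).continuousAt.norm.pow 2).mul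
        ((continuousAt_const.mul h2).neg.rexp)
    refine h1.congr ?_
    filter_upwards [(Jd_continuous (P := P) hg).continuousAt.eventually_ne h0] with z hz
    rw [Ef_ne hz]

/-- `1 ≤ (1 - x) exp (x + x²)` for `|x| ≤ 1/2` -/
lemma one_le_mul_exp {x : ℝ} (hx : |x| ≤ 1 / 2) : 1 ≤ (1 - x) * Real.exp (x + x ^ 2) := by
  obtain ⟨h1, h2⟩ := abs_le.1 hx
  rcases le_total x 0 with h | h
  · have h3 : 1 + (x + x ^ 2) ≤ Real.exp (x + x ^ 2) := by
      have := Real.add_one_le_exp (x + x ^ 2); linarith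
    have h4 : (1 - x) * (1 + (x + x ^ 2)) ≤ (1 - x) * Real.exp (x + x ^ 2) :=
      mul_le_mul_of_nonneg_left h3 (by linarith)
    nlinarith [mul_nonneg (neg_nonneg.2 h) (sq_nonneg x)]
  · have h3 := Real.quadratic_le_exp_of_nonneg (x := x + x ^ 2) (by positivity)
    have h4 : (1 - x) * (1 + (x + x ^ 2) + (x + x ^ 2) ^ 2 / 2) ≤
        (1 - x) * Real.exp (x + x ^ 2) := mul_le_mul_of_nonneg_left h3 (by linarith)
    have h5 : 0 ≤ 1 - x - x ^ 2 - x ^ 3 := by
      have a1 : x ^ 2 ≤ 1 / 2 * x := by nlinarith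
      have a2 : x ^ 3 ≤ 1 / 4 * x := by nlinarith
      linarith
    have h6 : (1 - x) * (1 + (x + x ^ 2) + (x + x ^ 2) ^ 2 / 2) =
        1 + x ^ 2 / 2 * (1 - x - x ^ 2 - x ^ 3) := by ring
    have h7 : 0 ≤ x ^ 2 / 2 * (1 - x - x ^ 2 - x ^ 3) := by positivity
    linarith

/-- the square of the Euclidean norm -/
def Nq (z : Cm p) : ℝ := ∑ j, ‖z j‖ ^ 2

lemma Nq_continuous : Continuous (Nq (p := p)) := by
  unfold Nq
  fun_prop

lemma norm_sq_le_Nq (z : Cm p) (j : Fin p) : ‖z j‖ ^ 2 ≤ Nq z :=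
  Finset.single_le_sum (f := fun j => ‖z j‖ ^ 2) (fun _ _ => sq_nonneg _) (Finset.mem_univ j)

lemma Nq_add (z e : Cm p) (ζ : ℂ) :
    Nq (z + ζ • e) = Nq z + 2 * (ζ * ∑ j, conj (z j) * e j).re + ‖ζ‖ ^ 2 * Nq e := by
  unfold Nq
  rw [Finset.mul_sum, Complex.re_sum, Finset.mul_sum, Finset.mul_sum, ← Finset.sum_add_distrib,
    ← Finset.sum_add_distrib]
  refine Finset.sum_congr rfl fun j _ => ?_
  simp only [Pi.add_apply, Pi.smul_apply, smul_eq_mul]
  rw [← Complex.normSq_eq_norm_sq, ← Complex.normSq_eq_norm_sq, ← Complex.normSq_eq_norm_sq,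
    ← Complex.normSq_eq_norm_sq]
  simp only [Complex.normSq_apply, Complex.add_re, Complex.add_im, Complex.mul_re, Complex.mul_im,
    Complex.conj_re, Complex.conj_im]
  ring

end core

end Vale.Agent.P284.H383
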