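import Vale.Agent.P284.H383.Ram3

/-!
# P284 (helper383), module RAM: the core statement, end of the proof
-/

open scoped Topology ContDiff ComplexConjugate ComplexOrder
open Filter Set Metric Real

noncomputable section

namespace Vale.Agent.P284.H383

open Vale.Agent.P272.K Vale.Agent.P284.H213.KL

variable {p q : ℕ} {D : Set (Cm q)} {ψ : Cm q → ℝ} {P : Cm q →L[ℂ] Cm p} {c C₀ C₁ δ : ℝ}
  {g : Cm p → Cm q}

lemma Nq_le (e : Cm p) (he : ‖e‖ ≤ 1) : Nq e ≤ p := by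
  unfold Nq
  calc ∑ j, ‖e j‖ ^ 2 ≤ ∑ _j : Fin p, (1 : ℝ) := by
        refine Finset.sum_le_sum fun j _ => ?_
        have h1 : ‖e j‖ ≤ 1 := (norm_le_pi_norm e j).trans he
        have h2 := norm_nonneg (e j)
        nlinarith
    _ = p := by simp

lemma Nq_nonneg (e : Cm p) : 0 ≤ Nq e := Finset.sum_nonneg fun _ _ => sq_nonneg _

/-- growth of a function near its weighted maximum on a ball -/
lemma growth_at_max (hp : 1 ≤ p) {E : Cm p → ℝ} (hE0 : ∀ z, 0 ≤ E z) {R κ₀ s : ℝ} (hR : 0 < R)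
    (hκ : 0 < κ₀) (hκ1 : κ₀ ≤ 1 / 6) {z₁ : Cm p} (hρ : 0 < R ^ 2 - Nq z₁)
    (hmax : ∀ z, Nq z ≤ R ^ 2 →
      E z * (R ^ 2 - Nq z) ^ (2 * p) ≤ E z₁ * (R ^ 2 - Nq z₁) ^ (2 * p))
    (hs : 0 < s) (hsR : s * (p * R) ≤ κ₀ * (R ^ 2 - Nq z₁)) {e : Cm p} (he : ‖e‖ ≤ 1) {ζ : ℂ}
    (hζ : ‖ζ‖ ≤ s) :
    E (z₁ + ζ • e) ≤ E z₁ * Real.exp
      ((((4 * p / (R ^ 2 - Nq z₁) : ℝ) : ℂ) * (∑ j, conj (z₁ j) * e j) * ζ).re + 20 * p * κ₀ ^ 2) := by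
  set ρ : ℝ := R ^ 2 - Nq z₁ with hρdef
  set A : ℂ := ∑ j, conj (z₁ j) * e j with hA
  have hp0 : (1 : ℝ) ≤ p := by exact_mod_cast hp
  have hN0 := Nq_nonneg z₁
  have hρR : ρ ≤ R ^ 2 := by linarith
  have hz1 : ∀ j, ‖z₁ j‖ ≤ R := by
    intro j
    have h1 := norm_sq_le_Nq z₁ j
    exact abs_le_of_sq_le_sq' (by linarith) hR.le |>.2
  have hAn : ‖A‖ ≤ p * R := by
    calc ‖A‖ ≤ ∑ j, ‖conj (z₁ j) * e j‖ := norm_sum_le _ _
      _ ≤ ∑ _j : Fin p, R := by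
          refine Finset.sum_le_sum fun j _ => ?_
          rw [norm_mul, RCLike.norm_conj]
          have h1 : ‖e j‖ ≤ 1 := (norm_le_pi_norm e j).trans he
          calc ‖z₁ j‖ * ‖e j‖ ≤ R * 1 := mul_le_mul (hz1 j) h1 (norm_nonneg _) hR.le
            _ = R := mul_one R
      _ = p * R := by simp
  have hre : |(ζ * A).re| ≤ κ₀ * ρ := by
    calc |(ζ * A).re| ≤ ‖ζ * A‖ := Complex.abs_re_le_norm _
      _ = ‖ζ‖ * ‖A‖ := norm_mul _ _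
      _ ≤ s * (p * R) := mul_le_mul hζ hAn (norm_nonneg _) hs.le
      _ ≤ _ := hsR
  have hNe := Nq_le e he
  have hNe0 := Nq_nonneg e
  have hs2 : s ^ 2 * p ≤ κ₀ ^ 2 * ρ := by
    have h1 : (s * (p * R)) ^ 2 ≤ (κ₀ * ρ) ^ 2 := pow_le_pow_left₀ (by positivity) hsR 2
    have h2 : (κ₀ * ρ) ^ 2 ≤ κ₀ ^ 2 * ρ * R ^ 2 := by
      have : 0 ≤ κ₀ ^ 2 * ρ := by positivity
      nlinarith
    have h3 : s ^ 2 * p ^ 2 * R ^ 2 ≤ κ₀ ^ 2 * ρ * R ^ 2 := by nlinarith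
    have h4 : s ^ 2 * p ^ 2 ≤ κ₀ ^ 2 * ρ := le_of_mul_le_mul_right h3 (by positivity)
    have h5 : s ^ 2 * p ≤ s ^ 2 * p ^ 2 := by
      have : (p : ℝ) ≤ p ^ 2 := by nlinarith
      exact mul_le_mul_of_nonneg_left this (by positivity)
    linarith
  have hq : ‖ζ‖ ^ 2 * Nq e ≤ κ₀ ^ 2 * ρ := by
    calc ‖ζ‖ ^ 2 * Nq e ≤ s ^ 2 * p :=
          mul_le_mul (pow_le_pow_left₀ (norm_nonneg _) hζ 2) hNe hNe0 (by positivity)
      _ ≤ _ := hs2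
  have hq0 : 0 ≤ ‖ζ‖ ^ 2 * Nq e := by positivity
  set x : ℝ := (2 * (ζ * A).re + ‖ζ‖ ^ 2 * Nq e) / ρ with hx
  have hxρ : x * ρ = 2 * (ζ * A).re + ‖ζ‖ ^ 2 * Nq e := by rw [hx]; field_simp
  obtain ⟨hr1, hr2⟩ := abs_le.1 hre
  have hx1 : x ≤ 3 * κ₀ := by
    refine le_of_mul_le_mul_right ?_ hρ
    rw [hxρ]
    have : κ₀ ^ 2 * ρ ≤ κ₀ * ρ := by
      refine mul_le_mul_of_nonneg_right ?_ hρ.le
      nlinarith
    linarith
  have hx2 : -(3 * κ₀) ≤ x := by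
    refine le_of_mul_le_mul_right ?_ hρ
    rw [hxρ]
    have : 0 ≤ κ₀ * ρ := by positivity
    linarith
  have hxabs : |x| ≤ 3 * κ₀ := abs_le.2 ⟨hx2, hx1⟩
  have hxh : |x| ≤ 1 / 2 := by linarith
  have hNz : R ^ 2 - Nq (z₁ + ζ • e) = ρ * (1 - x) := by
    rw [Nq_add, mul_sub, mul_one, mul_comm ρ x, hxρ]
    rw [hρdef]; ring
  have h1x : 0 < 1 - x := by
    have := (abs_le.1 hxh).2; linarith
  have hzR : Nq (z₁ + ζ • e) ≤ R ^ 2 := by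
    have : 0 < ρ * (1 - x) := by positivity
    linarith
  have hm := hmax _ hzR
  rw [hNz, mul_pow] at hm
  have hρp : 0 < ρ ^ (2 * p) := by positivity
  have hm2 : E (z₁ + ζ • e) * (1 - x) ^ (2 * p) ≤ E z₁ := by
    refine le_of_mul_le_mul_right ?_ hρp
    calc E (z₁ + ζ • e) * (1 - x) ^ (2 * p) * ρ ^ (2 * p) =
        E (z₁ + ζ • e) * (ρ ^ (2 * p) * (1 - x) ^ (2 * p)) := by ring
      _ ≤ _ := hm
  have hone : 1 ≤ ((1 - x) * Real.exp (x + x ^ 2)) ^ (2 * p) := one_le_pow₀ (one_le_mul_exp hxh)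
  have hexp : Real.exp (x + x ^ 2) ^ (2 * p) = Real.exp (2 * p * (x + x ^ 2)) := by
    rw [← Real.exp_nat_mul]; push_cast; rfl
  have hfin : E (z₁ + ζ • e) ≤ E z₁ * Real.exp (2 * p * (x + x ^ 2)) := by
    calc E (z₁ + ζ • e) ≤ E (z₁ + ζ • e) * ((1 - x) * Real.exp (x + x ^ 2)) ^ (2 * p) :=
          le_mul_of_one_le_right (hE0 _) hone
      _ = E (z₁ + ζ • e) * (1 - x) ^ (2 * p) * Real.exp (2 * p * (x + x ^ 2)) := by
          rw [mul_pow, hexp]; ring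
      _ ≤ _ := mul_le_mul_of_nonneg_right hm2 (Real.exp_pos _).le
  refine hfin.trans (mul_le_mul_of_nonneg_left (Real.exp_le_exp.2 ?_) (hE0 _))
  have hKre : (((4 * p / ρ : ℝ) : ℂ) * A * ζ).re = 4 * p / ρ * (ζ * A).re := by
    rw [mul_assoc, Complex.re_ofReal_mul, mul_comm A ζ]
  rw [hKre]
  have hx3 : x ≤ 2 * (ζ * A).re / ρ + κ₀ ^ 2 := by
    rw [hx, add_div]
    have : ‖ζ‖ ^ 2 * Nq e / ρ ≤ κ₀ ^ 2 := by
      rw [div_le_iff₀ hρ]; exact hq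
    linarith
  have hx4 : x ^ 2 ≤ 9 * κ₀ ^ 2 := by
    have : x ^ 2 ≤ (3 * κ₀) ^ 2 := by
      rw [← sq_abs]
      exact pow_le_pow_left₀ (abs_nonneg _) hxabs 2
    linarith
  have hx5 : x + x ^ 2 ≤ 2 * (ζ * A).re / ρ + 10 * κ₀ ^ 2 := by linarith
  calc 2 * p * (x + x ^ 2) ≤ 2 * p * (2 * (ζ * A).re / ρ + 10 * κ₀ ^ 2) :=
        mul_le_mul_of_nonneg_left hx5 (by positivity)
    _ = 4 * p / ρ * (ζ * A).re + 20 * p * κ₀ ^ 2 := by ring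

/-- the image of a ball around the maximum is small -/
lemma small_at_max (hp : 1 ≤ p) (hc : 0 < c) (hδ : 0 < δ)
    (hψ : ∀ t ∉ D, ContDiffAt ℝ 2 ψ t)
    (hlev : ∀ t ∉ D, ∀ v, lev ψ t v ≤ -c * ‖P v‖ ^ 2)
    (hloj : ∀ t ∉ D, ∀ r : ℝ, 0 < r → (∀ y ∈ D, r ≤ ‖y - t‖) → r ≤ C₁ * Real.exp (δ * ψ t))
    (hker : ∀ y ∈ D, ∀ k, P k = 0 → y + k ∈ D) (hg : Differentiable ℂ g)
    (hcrit : ∀ z, g z ∈ D → Jd P g z = 0) {R κ₀ s : ℝ} (hR : 0 < R)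
    (hκ : 0 < κ₀) (hκ1 : κ₀ ≤ 1 / 6) (hκ2 : 40 * p * κ₀ ^ 2 ≤ δ / 2 * c / p) {z₁ : Cm p}
    (hJ : Jd P g z₁ ≠ 0) (hρ : 0 < R ^ 2 - Nq z₁)
    (hmax : ∀ z, Nq z ≤ R ^ 2 →
      Ef P g ψ δ z * (R ^ 2 - Nq z) ^ (2 * p) ≤ Ef P g ψ δ z₁ * (R ^ 2 - Nq z₁) ^ (2 * p))
    (hs : 0 < s) (hsR : s * (p * R) ≤ κ₀ * (R ^ 2 - Nq z₁)) {w : Cm p} (hw : ‖w‖ ≤ s / 2) :
    ‖P (g (z₁ + w)) - P (g z₁)‖ ≤ 1 := by
  have hp0 : (1 : ℝ) ≤ p := by exact_mod_cast hp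
  set e : Cm p := ((s / 2 : ℝ) : ℂ)⁻¹ • w with he
  have hs2 : 0 < s / 2 := half_pos hs
  have hsC : ((s / 2 : ℝ) : ℂ) ≠ 0 := by exact_mod_cast hs2.ne'
  have hew : ((s / 2 : ℝ) : ℂ) • e = w := by rw [he, smul_smul, mul_inv_cancel₀ hsC, one_smul]
  have hen : ‖e‖ ≤ 1 := by
    rw [he, norm_smul, norm_inv, Complex.norm_real, Real.norm_of_nonneg hs2.le, inv_mul_le_iff₀ hs2]
    linarith
  set ℓ : Cm 1 → Cm p := fun ζ => z₁ + ζ 0 • e with hℓ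
  have hℓd : Differentiable ℂ ℓ := by
    intro ζ
    have h1 : DifferentiableAt ℂ (fun ζ : Cm 1 => ζ 0) ζ := by fun_prop
    exact (h1.smul_const e).const_add z₁
  have hℓ0 : ℓ 0 = z₁ := by simp [hℓ]
  have hgℓ : Differentiable ℂ fun ζ => g (ℓ ζ) := fun ζ => (hg _).comp ζ (hℓd ζ)
  set G : Cm 1 → Cm p := fun ζ => P (g (ℓ ζ)) - P (g z₁) with hG
  have hGd : Differentiable ℂ G := fun ζ =>
    (P.differentiableAt.comp ζ (hgℓ ζ)).sub_const _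
  set L := (EuclideanSpace.equiv (Fin p) ℂ).symm with hL
  set F : Cm 1 → EuclideanSpace ℂ (Fin p) := fun ζ => L (G ζ) with hF
  have hFd : Differentiable ℂ F := fun ζ => L.differentiableAt.comp ζ (hGd ζ)
  have hFan : ∀ ζ, AnalyticAt ℂ F ζ := fun ζ =>
    Vale.Agent.P268.analyticAt_of_differentiableOn isOpen_univ hFd.differentiableOn (mem_univ ζ)
  have hnormF : ∀ v : Cm p, ‖L v‖ ^ 2 = ∑ k, ‖v k‖ ^ 2 := by
    intro v
    rw [EuclideanSpace.norm_sq_eq]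
    rfl
  have hfF : ∀ ζ, fderiv ℂ F ζ 1 = L (P (fderiv ℂ (fun ζ => g (ℓ ζ)) ζ 1)) := by
    intro ζ
    have h1 : HasFDerivAt F ((L : Cm p →L[ℂ] EuclideanSpace ℂ (Fin p)).comp
        (P.comp (fderiv ℂ (fun ζ => g (ℓ ζ)) ζ))) ζ := by
      have h2 := (P.hasFDerivAt.comp ζ (hgℓ ζ).hasFDerivAt).sub_const (P (g z₁))
      exact (L : Cm p →L[ℂ] EuclideanSpace ℂ (Fin p)).hasFDerivAt.comp ζ h2
    rw [h1.fderiv]
    rfl
  set κ : ℝ := δ / 2 * c / p with hκdef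
  have hκpos : 0 < κ := by positivity
  have hEc := Ef_continuous (δ := δ) hp hψ hloj hker hg hcrit
  have hgrow := fun {ζ : ℂ} (hζ : ‖ζ‖ ≤ s) => growth_at_max (E := Ef P g ψ δ) hp
    (fun z => Ef_nonneg z) hR hκ hκ1 hρ hmax hs hsR hen hζ
  have hdisc := disc_lemma (s := s) (η := 20 * p * κ₀ ^ 2) (κ := κ) hs
    (W := fun ζ => Ef P g ψ δ (ℓ ζ)) (χ := fun ζ => δ / 2 * ψ (g (ℓ ζ)))
    (H := fun ζ => Jd P g (ℓ ζ)) (F := F)
    (K := ((4 * p / (R ^ 2 - Nq z₁) : ℝ) : ℂ) * (∑ j, conj (z₁ j) * e j))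
    (hEc.comp hℓd.continuous)
    (fun ζ => (Jd_omega hg _).comp ζ (omega_of_differentiable hℓd ζ)) hFan
    (fun ζ h => Ef_ne h) (fun ζ h => Ef_zero h)
    (by
      intro ζ hζ
      have ht : g (ℓ ζ) ∉ D := fun h => hζ (hcrit _ h)
      have h1 : ContDiffAt ℝ 2 (fun ζ => g (ℓ ζ)) ζ :=
        ((omega_of_differentiable hgℓ ζ).of_le (by simp)).restrict_scalars ℝ
      exact contDiffAt_const.mul (ContDiffAt.comp (g := ψ) ζ (hψ _ ht) h1))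
    (by
      intro ζ hζ
      have ht : g (ℓ ζ) ∉ D := fun h => hζ (hcrit _ h)
      have h1 : ContDiffAt ℝ 2 (fun ζ => g (ℓ ζ)) ζ :=
        ((omega_of_differentiable hgℓ ζ).of_le (by simp)).restrict_scalars ℝ
      have h2 : ContDiffAt ℝ 2 (fun ζ => ψ (g (ℓ ζ))) ζ := ContDiffAt.comp (g := ψ) ζ (hψ _ ht) h1
      rw [lev_const_mul h2, lev_comp_holo (g := ψ) (Φ := fun ζ => g (ℓ ζ)) (hψ _ ht)
        (omega_of_differentiable hgℓ ζ), hfF, hnormF]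
      set v := P (fderiv ℂ (fun ζ => g (ℓ ζ)) ζ 1) with hv
      have h3 := hlev _ ht (fderiv ℂ (fun ζ => g (ℓ ζ)) ζ 1)
      have h4 : ∑ k, ‖v k‖ ^ 2 ≤ p * ‖v‖ ^ 2 := by
        calc ∑ k, ‖v k‖ ^ 2 ≤ ∑ _k : Fin p, ‖v‖ ^ 2 :=
              Finset.sum_le_sum fun k _ => pow_le_pow_left₀ (norm_nonneg _) (norm_le_pi_norm v k) 2
          _ = _ := by simp
      have h5 : κ * ∑ k, ‖v k‖ ^ 2 ≤ δ / 2 * (c * ‖v‖ ^ 2) := by
        calc κ * ∑ k, ‖v k‖ ^ 2 ≤ κ * (p * ‖v‖ ^ 2) := mul_le_mul_of_nonneg_left h4 hκpos.le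
          _ = _ := by rw [hκdef]; field_simp
      have h6 : δ / 2 * lev ψ (g (ℓ ζ)) (fderiv ℂ (fun ζ => g (ℓ ζ)) ζ 1) ≤
          δ / 2 * (-c * ‖v‖ ^ 2) := mul_le_mul_of_nonneg_left h3 (by positivity)
      linarith)
    (by simp [hF, hG, hℓ0])
    (by
      simp only [hℓ0]
      rw [Ef_ne hJ]
      have : 0 < ‖Jd P g z₁‖ := norm_pos_iff.2 hJ
      positivity)
    (by
      intro ζ hζ
      have h1 : ‖ζ 0‖ ≤ s := (norm_le_pi_norm ζ 0).trans hζ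
      simp only [hℓ0]
      exact hgrow h1)
  -- the components
  have havg : circleAverage (fun ξ : ℂ => ‖F (fun _ => ξ)‖ ^ 2) 0 s ≤ 1 / 2 := by
    have h1 : κ * circleAverage (fun ξ : ℂ => ‖F (fun _ => ξ)‖ ^ 2) 0 s ≤ κ * (1 / 2) := by
      linarith
    exact le_of_mul_le_mul_left h1 hκpos
  rw [pi_norm_le_iff_of_nonneg zero_le_one]
  intro k
  have hsec : Continuous fun ξ : ℂ => (fun _ => ξ : Cm 1) := continuous_pi fun _ => continuous_id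
  have hsecd : Differentiable ℂ fun ξ : ℂ => (fun _ => ξ : Cm 1) := by
    rw [differentiable_pi]
    intro _
    exact differentiable_id
  have hf : Differentiable ℂ fun ξ : ℂ => G (fun _ => ξ) k := by
    have h1 : Differentiable ℂ fun ξ : ℂ => G (fun _ => ξ) := fun ξ =>
      (hGd _).comp ξ (hsecd ξ)
    exact (differentiable_pi.1 h1) k
  have hle : circleAverage (fun ξ : ℂ => ‖G (fun _ => ξ) k‖ ^ 2) 0 s ≤ 1 / 2 := by
    refine le_trans (circleAverage_mono ?_ ?_ ?_) havg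
    · exact (hf.continuous.norm.pow 2).continuousOn.circleIntegrable'
    · exact ((hFd.continuous.comp hsec).norm.pow 2).continuousOn.circleIntegrable'
    · intro ξ _
      rw [hF]
      simp only
      rw [hnormF]
      exact Finset.single_le_sum (f := fun k => ‖G (fun _ => ξ) k‖ ^ 2) (fun _ _ => sq_nonneg _)
        (Finset.mem_univ k)
  have hfin := cauchy_sq hf hs hle (w := ((s / 2 : ℝ) : ℂ))
    (by rw [Complex.norm_real, Real.norm_of_nonneg hs2.le])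
  have hval : G (fun _ => ((s / 2 : ℝ) : ℂ)) = P (g (z₁ + w)) - P (g z₁) := by
    simp only [hG, hℓ]
    rw [hew]
  rw [hval] at hfin
  have h1 : ‖(P (g (z₁ + w)) - P (g z₁)) k‖ ^ 2 ≤ 1 ^ 2 := by linarith
  exact abs_le_of_sq_le_sq' h1 zero_le_one |>.2

/-- **Module RAM, core statement.** -/
theorem ram_core (hp : 1 ≤ p) (hc : 0 < c) (hδ : 0 < δ) (hC₁ : 0 < C₁)
    (hψ : ∀ t ∉ D, ContDiffAt ℝ 2 ψ t)
    (hlev : ∀ t ∉ D, ∀ v, lev ψ t v ≤ -c * ‖P v‖ ^ 2)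
    (hup : ∀ t ∉ D, ψ t ≤ C₀)
    (hloj : ∀ t ∉ D, ∀ r : ℝ, 0 < r → (∀ y ∈ D, r ≤ ‖y - t‖) → r ≤ C₁ * Real.exp (δ * ψ t))
    (hker : ∀ y ∈ D, ∀ k, P k = 0 → y + k ∈ D) (hg : Differentiable ℂ g)
    (hcrit : ∀ z, g z ∈ D → (fderiv ℂ (fun y => P (g y)) z).det = 0) (z : Cm p) :
    (fderiv ℂ (fun y => P (g y)) z).det = 0 := by
  have hp0 : (1 : ℝ) ≤ p := by exact_mod_cast hp
  have hcq := cq_pos hp
  set κ : ℝ := δ / 2 * c / p with hκdef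
  have hκpos : 0 < κ := by positivity
  set κ₀ : ℝ := min (1 / 6) (κ / (40 * p)) with hκ₀
  have hκ₀pos : 0 < κ₀ := lt_min (by norm_num) (by positivity)
  have hκ₀1 : κ₀ ≤ 1 / 6 := min_le_left _ _
  have hκ₀2 : 40 * p * κ₀ ^ 2 ≤ κ := by
    have h1 : κ₀ ≤ κ / (40 * p) := min_le_right _ _
    have h2 : 40 * p * κ₀ ≤ κ := by
      rw [le_div_iff₀ (by positivity)] at h1; linarith
    nlinarith
  set a : ℝ := cq p / (‖P‖ + 1) with ha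
  have ha0 : 0 < a := by positivity
  set C₂ : ℝ := 4 ^ p * (C₁ * Real.exp (δ / 2 * C₀) + 1) / a with hC₂
  have hC₂pos : 0 < C₂ := by positivity
  have hEc := Ef_continuous (δ := δ) hp hψ hloj hker hg hcrit
  have h2p : 2 * p ≠ 0 := by omega
  -- the bound on balls
  have key : ∀ R : ℝ, 0 < R → ∀ z : Cm p, Nq z ≤ R ^ 2 →
      Ef P g ψ δ z * (R ^ 2 - Nq z) ^ (2 * p) ≤ C₂ * (p * R / κ₀) ^ (2 * p) := by
    intro R hR
    set S : Set (Cm p) := {z | Nq z ≤ R ^ 2} with hS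
    have hSc : IsCompact S := by
      refine Metric.isCompact_of_isClosed_isBounded (isClosed_le Nq_continuous continuous_const) ?_
      refine (Metric.isBounded_iff_subset_closedBall 0).2 ⟨R, fun z hz => ?_⟩
      rw [mem_closedBall_zero_iff, pi_norm_le_iff_of_nonneg hR.le]
      intro j
      have h1 : ‖z j‖ ^ 2 ≤ R ^ 2 := (norm_sq_le_Nq z j).trans hz
      exact abs_le_of_sq_le_sq' h1 hR.le |>.2
    have hS0 : S.Nonempty := ⟨0, by simp [hS, Nq]; positivity⟩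
    have hMc : Continuous fun z => Ef P g ψ δ z * (R ^ 2 - Nq z) ^ (2 * p) :=
      hEc.mul ((continuous_const.sub Nq_continuous).pow _)
    obtain ⟨z₁, hz₁, hm⟩ := hSc.exists_isMaxOn hS0 hMc.continuousOn
    intro z hz
    refine (hm hz).trans ?_
    show Ef P g ψ δ z₁ * (R ^ 2 - Nq z₁) ^ (2 * p) ≤ _
    by_contra hcon
    push Not at hcon
    have hB0 : 0 < C₂ * (p * R / κ₀) ^ (2 * p) := by positivity
    have hprod : 0 < Ef P g ψ δ z₁ * (R ^ 2 - Nq z₁) ^ (2 * p) := hB0.trans hcon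
    have hEne : Ef P g ψ δ z₁ ≠ 0 := fun h => by rw [h, zero_mul] at hprod; exact lt_irrefl _ hprod
    have hE1 : 0 < Ef P g ψ δ z₁ := lt_of_le_of_ne (Ef_nonneg _) hEne.symm
    have hJ : Jd P g z₁ ≠ 0 := fun h => hEne (Ef_zero h)
    have hρ0 : 0 ≤ R ^ 2 - Nq z₁ := sub_nonneg.2 hz₁
    have hρ : 0 < R ^ 2 - Nq z₁ := by
      refine lt_of_le_of_ne hρ0 fun h => ?_
      rw [← h, zero_pow h2p, mul_zero] at hprod
      exact lt_irrefl _ hprod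
    have hs : 0 < (C₂ / Ef P g ψ δ z₁) ^ (((2 * p : ℕ) : ℝ)⁻¹) := Real.rpow_pos_of_pos (by positivity) _
    set s : ℝ := (C₂ / Ef P g ψ δ z₁) ^ (((2 * p : ℕ) : ℝ)⁻¹) with hsdef
    have hsp : s ^ (2 * p) = C₂ / Ef P g ψ δ z₁ :=
      Real.rpow_inv_natCast_pow (by positivity) h2p
    have hspE : s ^ (2 * p) * Ef P g ψ δ z₁ = C₂ := by rw [hsp]; field_simp
    have hsR : s * (p * R) ≤ κ₀ * (R ^ 2 - Nq z₁) := by
      refine le_of_lt (lt_of_pow_lt_pow_left₀ (2 * p) (by positivity) ?_)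
      have h1 : (s * (p * R)) ^ (2 * p) * Ef P g ψ δ z₁ = κ₀ ^ (2 * p) *
          (C₂ * (p * R / κ₀) ^ (2 * p)) := by
        rw [mul_pow, div_pow]
        calc s ^ (2 * p) * (p * R) ^ (2 * p) * Ef P g ψ δ z₁ =
            (s ^ (2 * p) * Ef P g ψ δ z₁) * (p * R) ^ (2 * p) := by ring
          _ = C₂ * (p * R) ^ (2 * p) := by rw [hspE]
          _ = _ := by field_simp
      have h2 : (s * (p * R)) ^ (2 * p) * Ef P g ψ δ z₁ <
          (κ₀ * (R ^ 2 - Nq z₁)) ^ (2 * p) * Ef P g ψ δ z₁ := by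
        rw [h1, mul_pow]
        calc κ₀ ^ (2 * p) * (C₂ * (p * R / κ₀) ^ (2 * p)) <
            κ₀ ^ (2 * p) * (Ef P g ψ δ z₁ * (R ^ 2 - Nq z₁) ^ (2 * p)) :=
              mul_lt_mul_of_pos_left hcon (by positivity)
          _ = _ := by ring
      exact lt_of_mul_lt_mul_right h2 hE1.le
    have hsmall : ∀ z' ∈ ball z₁ (s / 2), ‖P (g z') - P (g z₁)‖ ≤ 1 := by
      intro z' hz'
      have h1 := small_at_max (z₁ := z₁) (w := z' - z₁) hp hc hδ hψ hlev hloj hker hg hcrit hR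
        hκ₀pos hκ₀1 hκ₀2 hJ hρ (fun z hz => hm hz) hs hsR
        (by rw [← dist_eq_norm]; exact (mem_ball.1 hz').le)
      simpa using h1
    have hq := qbound hp hloj hker hg hcrit hJ (half_pos hs) hsmall
    rw [← ha] at hq
    -- comparison
    have hE1' : Ef P g ψ δ z₁ = ‖Jd P g z₁‖ ^ 2 * Real.exp (-(δ / 2 * ψ (g z₁))) := Ef_ne hJ
    have h3 : s ^ (2 * p) * ‖Jd P g z₁‖ ^ 2 = C₂ * Real.exp (δ / 2 * ψ (g z₁)) := by
      rw [← hspE, hE1']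
      have : Real.exp (-(δ / 2 * ψ (g z₁))) * Real.exp (δ / 2 * ψ (g z₁)) = 1 := by
        rw [← Real.exp_add, neg_add_cancel, Real.exp_zero]
      calc s ^ (2 * p) * ‖Jd P g z₁‖ ^ 2 = s ^ (2 * p) * ‖Jd P g z₁‖ ^ 2 * 1 := by ring
        _ = _ := by rw [← this]; ring
    have h4 : ((s / 2) ^ p * ‖Jd P g z₁‖) ^ 2 = (4 ^ p)⁻¹ * (C₂ * Real.exp (δ / 2 * ψ (g z₁))) := by
      rw [← h3, div_pow, mul_pow, div_pow, ← pow_mul, ← pow_mul, mul_comm p 2]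
      rw [pow_mul 2 2 p]
      norm_num
      ring
    have h5 : Real.exp (δ * ψ (g z₁)) = Real.exp (δ / 2 * ψ (g z₁)) * Real.exp (δ / 2 * ψ (g z₁)) := by
      rw [← Real.exp_add]; congr 1; ring
    rw [h4, h5] at hq
    have hexp0 : 0 < Real.exp (δ / 2 * ψ (g z₁)) := Real.exp_pos _
    have h6 : a * ((4 ^ p)⁻¹ * C₂) ≤ C₁ * Real.exp (δ / 2 * ψ (g z₁)) := by
      refine le_of_mul_le_mul_right ?_ hexp0
      calc a * ((4 ^ p)⁻¹ * C₂) * Real.exp (δ / 2 * ψ (g z₁)) =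
          a * ((4 ^ p)⁻¹ * (C₂ * Real.exp (δ / 2 * ψ (g z₁)))) := by ring
        _ ≤ _ := hq
        _ = _ := by ring
    have h7 : a * ((4 ^ p)⁻¹ * C₂) = C₁ * Real.exp (δ / 2 * C₀) + 1 := by
      rw [hC₂]; field_simp
    have ht : g z₁ ∉ D := fun h => hJ (hcrit _ h)
    have h8 : C₁ * Real.exp (δ / 2 * ψ (g z₁)) ≤ C₁ * Real.exp (δ / 2 * C₀) := by
      refine mul_le_mul_of_nonneg_left (Real.exp_le_exp.2 ?_) hC₁.le
      exact mul_le_mul_of_nonneg_left (hup _ ht) (by positivity)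
    linarith
  -- letting `R` tend to infinity
  by_contra hJz
  have hJ : Jd P g z ≠ 0 := hJz
  have hE : 0 < Ef P g ψ δ z := by
    rw [Ef_ne hJ]
    have : 0 < ‖Jd P g z‖ := norm_pos_iff.2 hJ
    positivity
  have hNz := Nq_nonneg z
  set B : ℝ := C₂ * (2 * p / κ₀) ^ (2 * p) with hB
  have hB0 : 0 < B := by positivity
  set R : ℝ := B / Ef P g ψ δ z + 2 * Nq z + 2 with hR
  have hB1 : 0 < B / Ef P g ψ δ z := by positivity
  have hR2 : 2 ≤ R := by rw [hR]; linarith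
  have hR0 : 0 < R := by linarith
  have hRsq : 2 * Nq z ≤ R ^ 2 := by
    have h1 : 2 * Nq z ≤ R := by rw [hR]; linarith
    nlinarith
  have h1 := key R hR0 z (by nlinarith)
  have h2 : R ^ 2 / 2 ≤ R ^ 2 - Nq z := by linarith
  have h3 : Ef P g ψ δ z * (R ^ 2 / 2) ^ (2 * p) ≤ C₂ * (p * R / κ₀) ^ (2 * p) :=
    (mul_le_mul_of_nonneg_left (pow_le_pow_left₀ (by positivity) h2 _) hE.le).trans h1
  have h4 : Ef P g ψ δ z * R ^ (2 * p) ≤ B := by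
    have h5 : 0 < (R / 2) ^ (2 * p) := by positivity
    refine le_of_mul_le_mul_right ?_ h5
    calc Ef P g ψ δ z * R ^ (2 * p) * (R / 2) ^ (2 * p) =
        Ef P g ψ δ z * (R ^ 2 / 2) ^ (2 * p) := by
          rw [mul_assoc, ← mul_pow]; congr 2; ring
      _ ≤ _ := h3
      _ = B * (R / 2) ^ (2 * p) := by
          rw [hB, mul_assoc, ← mul_pow]; congr 2; field_simp
  have h5 : R ≤ R ^ (2 * p) := le_self_pow₀ (by linarith) h2p
  have h6 : Ef P g ψ δ z * R ≤ B := (mul_le_mul_of_nonneg_left h5 hE.le).trans h4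
  have h7 : B / Ef P g ψ δ z < R := by rw [hR]; linarith
  rw [div_lt_iff₀ hE] at h7
  linarith

end Vale.Agent.P284.H383
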