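import Vale.Agent.P284.H383.Ram4
import Vale.Agent.P284.H279.TPS
import Mathlib.Analysis.Complex.JensenFormula

/-!
# P284 (helper383), module RAM: the local lower bound `|θ(t)| ≥ a dist(t, D)^k`

By Jensen's formula on discs.
-/

open scoped Topology ContDiff ComplexConjugate ComplexOrder
open Filter Set Metric Real

noncomputable section

namespace Vale.Agent.P284.H383

open Vale.Agent.P272.K Vale.Agent.P284.H213.KL MeromorphicOn

/-- A holomorphic function without zeros in `|z| < r`, bounded by `M` on a larger disc and bounded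
below by `m₀` on a circle, has value at least `m₀ (r/ρ)^k` at the centre. -/
theorem zero_free_bound {f : ℂ → ℂ} {ρ m₀ M : ℝ} (hρ : 0 < ρ) (hm : 0 < m₀) (hM : 1 ≤ M)
    (hf : AnalyticOnNhd ℂ f (closedBall 0 (4 * ρ)))
    (hbd : ∀ z ∈ closedBall (0 : ℂ) (4 * ρ), ‖f z‖ ≤ M)
    (hlow : ∀ z ∈ sphere (0 : ℂ) ρ, m₀ ≤ ‖f z‖) {k : ℕ}
    (hk : Real.log (M / m₀) / Real.log (3 / 2) ≤ k) {r : ℝ} (hr : 0 < r) (hrρ : r ≤ ρ)
    (hz : ∀ z ∈ ball (0 : ℂ) r, f z ≠ 0) : m₀ * (r / ρ) ^ k ≤ ‖f 0‖ := by
  have hρa : |ρ| = ρ := abs_of_pos hρ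
  have h2ρa : |2 * ρ| = 2 * ρ := abs_of_pos (by positivity)
  have h3ρa : |3 * ρ| = 3 * ρ := abs_of_pos (by positivity)
  have hnρ : ‖(ρ : ℂ)‖ = ρ := by rw [Complex.norm_real, Real.norm_of_nonneg hρ.le]
  have hsub1 : closedBall (0 : ℂ) |ρ| ⊆ closedBall 0 (4 * ρ) :=
    closedBall_subset_closedBall (by rw [hρa]; linarith)
  have hsub3 : closedBall (ρ : ℂ) |3 * ρ| ⊆ closedBall 0 (4 * ρ) := by
    refine closedBall_subset_closedBall' ?_
    rw [h3ρa, dist_zero_right, hnρ]; linarith
  have hsub2 : closedBall (ρ : ℂ) |2 * ρ| ⊆ closedBall 0 (4 * ρ) := by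
    refine closedBall_subset_closedBall' ?_
    rw [h2ρa, dist_zero_right, hnρ]; linarith
  have hsub12 : closedBall (0 : ℂ) |ρ| ⊆ closedBall (ρ : ℂ) |2 * ρ| := by
    refine closedBall_subset_closedBall' ?_
    rw [h2ρa, hρa, dist_zero_left, hnρ]; linarith
  set D₁ := divisor f (closedBall (0 : ℂ) |ρ|) with hD₁
  set D₂ := divisor f (closedBall (ρ : ℂ) |2 * ρ|) with hD₂
  have hfρ : m₀ ≤ ‖f ρ‖ := hlow _ (by rw [mem_sphere_zero_iff_norm, hnρ])
  have hfρ0 : 0 < ‖f ρ‖ := hm.trans_le hfρ
  have hlog : 0 < Real.log (3 / 2) := Real.log_pos (by norm_num)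
  -- number of zeros
  have hN : ((∑ᶠ u, D₂ u : ℤ) : ℝ) ≤ k := by
    have h1 := AnalyticOnNhd.sum_divisor_le (c := (ρ : ℂ)) (r := 2 * ρ) (R := 3 * ρ) (M := M)
      (f := f) (by rw [h2ρa]; positivity) (by rw [h2ρa, h3ρa]; linarith) hM (hf.mono hsub3)
      (norm_pos_iff.1 hfρ0) (fun z hz => hbd z (hsub3 (sphere_subset_closedBall hz)))
    refine h1.trans (le_trans ?_ hk)
    have h2 : 3 * ρ / (2 * ρ) = 3 / 2 := by field_simp
    rw [h2]
    refine div_le_div_of_nonneg_right (Real.log_le_log (by positivity) ?_) hlog.le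
    exact div_le_div_of_nonneg_left (by linarith) hm hfρ
  have hD1a : ∀ u ∈ closedBall (0 : ℂ) |ρ|, D₁ u = ((analyticOrderAt f u).map (↑)).untop₀ :=
    fun u hu => AnalyticOnNhd.divisor_apply (hf.mono hsub1) hu
  have hD2a : ∀ u ∈ closedBall (ρ : ℂ) |2 * ρ|, D₂ u = ((analyticOrderAt f u).map (↑)).untop₀ :=
    fun u hu => AnalyticOnNhd.divisor_apply (hf.mono hsub2) hu
  have hD10 : ∀ u, 0 ≤ D₁ u := fun u => AnalyticOnNhd.divisor_nonneg (hf.mono hsub1) u
  have hD20 : ∀ u, 0 ≤ D₂ u := fun u => AnalyticOnNhd.divisor_nonneg (hf.mono hsub2) u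
  have hD12 : ∀ u, D₁ u ≤ D₂ u := by
    intro u
    by_cases hu : u ∈ closedBall (0 : ℂ) |ρ|
    · rw [hD1a u hu, hD2a u (hsub12 hu)]
    · rw [show D₁ u = 0 from Function.locallyFinsuppWithin.apply_eq_zero_of_notMem _ hu]
      exact hD20 u
  have hfin1 : (Function.support fun u => D₁ u).Finite :=
    D₁.finiteSupport (isCompact_closedBall _ _)
  have hfin2 : (Function.support fun u => D₂ u).Finite :=
    D₂.finiteSupport (isCompact_closedBall _ _)
  have hN1 : ((∑ᶠ u, (D₁ u : ℝ)) : ℝ) ≤ k := by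
    refine le_trans ?_ hN
    have h1 : ((∑ᶠ u, D₂ u : ℤ) : ℝ) = ∑ᶠ u, (D₂ u : ℝ) :=
      map_finsum (Int.castRingHom ℝ) hfin2
    rw [h1]
    refine finsum_le_finsum' ?_ ?_ fun u => Int.cast_le.2 (hD12 u)
    · exact hfin1.subset fun u hu => by
        simp only [Function.mem_support, ne_eq, Int.cast_eq_zero] at hu ⊢; exact hu
    · exact hfin2.subset fun u hu => by
        simp only [Function.mem_support, ne_eq, Int.cast_eq_zero] at hu ⊢; exact hu
  have h0 : f 0 ≠ 0 := hz 0 (mem_ball_self hr)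
  have jensen := AnalyticOnNhd.circleAverage_log_norm (c := (0 : ℂ)) (R := ρ) hρ.ne'
    (hf.mono hsub1) h0
  have hlowavg : Real.log m₀ ≤ circleAverage (fun z => Real.log ‖f z‖) 0 ρ := by
    have h1 : circleAverage (fun _ : ℂ => Real.log m₀) 0 ρ = Real.log m₀ := circleAverage_const _ _ _
    rw [← h1]
    refine circleAverage_mono continuous_const.continuousOn.circleIntegrable' ?_ ?_
    · exact (hf.mono (sphere_subset_closedBall.trans hsub1)).meromorphicOn.circleIntegrable_log_norm
    · intro z hz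
      rw [hρa] at hz
      exact Real.log_le_log hm (hlow z hz)
  have hlr : 0 ≤ Real.log (ρ / r) := Real.log_nonneg (by rw [le_div_iff₀ hr]; linarith)
  have hsum : ∑ᶠ u, (D₁ u : ℝ) * Real.log (ρ * ‖(0 : ℂ) - u‖⁻¹) ≤ k * Real.log (ρ / r) := by
    calc ∑ᶠ u, (D₁ u : ℝ) * Real.log (ρ * ‖(0 : ℂ) - u‖⁻¹)
        ≤ ∑ᶠ u, (D₁ u : ℝ) * Real.log (ρ / r) := by
          refine finsum_le_finsum' ?_ ?_ fun u => ?_
          · exact hfin1.subset fun u hu => by
              simp only [Function.mem_support, ne_eq, mul_eq_zero, Int.cast_eq_zero,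
                not_or] at hu ⊢
              exact hu.1
          · exact hfin1.subset fun u hu => by
              simp only [Function.mem_support, ne_eq, mul_eq_zero, Int.cast_eq_zero,
                not_or] at hu ⊢
              exact hu.1
          · by_cases hu0 : D₁ u = 0
            · simp only [hu0, Int.cast_zero, zero_mul, le_refl]
            · have hu : u ∈ closedBall (0 : ℂ) |ρ| := by
                by_contra hcon
                exact hu0 (Function.locallyFinsuppWithin.apply_eq_zero_of_notMem _ hcon)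
              have hfu : f u = 0 := by
                by_contra hfu
                refine hu0 ?_
                rw [hD1a u hu, ((hf u (hsub1 hu)).analyticOrderAt_eq_zero).2 hfu]
                rfl
              have hru : r ≤ ‖u‖ := by
                by_contra hcon
                push Not at hcon
                exact hz u (mem_ball_zero_iff.2 hcon) hfu
              have h1 : (0 : ℝ) ≤ (D₁ u : ℝ) := by exact_mod_cast hD10 u
              refine mul_le_mul_of_nonneg_left (Real.log_le_log ?_ ?_) h1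
              · have : 0 < ‖u‖ := hr.trans_le hru
                rw [zero_sub, norm_neg]
                positivity
              · rw [zero_sub, norm_neg, div_eq_mul_inv]
                exact mul_le_mul_of_nonneg_left (inv_anti₀ hr hru) hρ.le
      _ = (∑ᶠ u, (D₁ u : ℝ)) * Real.log (ρ / r) := (finsum_mul _ _).symm
      _ ≤ _ := mul_le_mul_of_nonneg_right hN1 hlr
  have hf0 : 0 < ‖f 0‖ := norm_pos_iff.2 h0
  have h5 : Real.log m₀ - k * Real.log (ρ / r) ≤ Real.log ‖f 0‖ := by
    have h6 : circleAverage (fun z => Real.log ‖f z‖) 0 ρ ≤ k * Real.log (ρ / r) + Real.log ‖f 0‖ := by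
      rw [jensen]
      exact add_le_add_left hsum _
    linarith
  have h7 : Real.log (m₀ * (r / ρ) ^ k) = Real.log m₀ - k * Real.log (ρ / r) := by
    rw [Real.log_mul hm.ne' (by positivity), Real.log_pow, Real.log_div hr.ne' hρ.ne',
      Real.log_div hρ.ne' hr.ne']
    ring
  rw [← h7] at h5
  exact (Real.log_le_log_iff (by positivity) hf0).1 h5

end Vale.Agent.P284.H383
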