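import Vale.Agent.P284.H383.Ram5

/-!
# P284 (helper383), module RAM: the lower bound for the potential and the final statement
-/

open scoped Topology ContDiff ComplexConjugate ComplexOrder
open Filter Set Metric Real

noncomputable section

namespace Vale.Agent.P284.H383

open Vale.Agent.P272.K Vale.Agent.P284.H213.KL Vale.Agent.P284.H279

variable {q : ℕ}

/-- local lower bound of a holomorphic function by a power of the distance to its zeros -/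
theorem loc_loj {θ : Cm q → ℂ} {x : Cm q} (hθ : AnalyticAt ℂ θ x)
    (hne : ¬ ∀ᶠ z in 𝓝 x, θ z = 0) : ∃ (a : ℝ) (k : ℕ) (r₀ : ℝ), 0 < a ∧ 0 < r₀ ∧
      ∀ᶠ t in 𝓝 x, ∀ r : ℝ, 0 < r → r ≤ r₀ → (∀ y, ‖y - t‖ < r → θ y ≠ 0) →
        a * r ^ k ≤ ‖θ t‖ := by
  by_cases h0 : θ x = 0
  swap
  · have h1 : 0 < ‖θ x‖ := norm_pos_iff.2 h0
    refine ⟨‖θ x‖ / 2, 0, 1, by positivity, one_pos, ?_⟩
    have h2 : ∀ᶠ t in 𝓝 x, ‖θ x‖ / 2 < ‖θ t‖ :=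
      hθ.continuousAt.norm.eventually_const_lt (half_lt_self h1)
    filter_upwards [h2] with t ht r _ _ _
    simpa using ht.le
  obtain ⟨R, hR, hRan⟩ := Metric.eventually_nhds_iff_ball.1 hθ.eventually_analyticAt
  obtain ⟨y₀, hy₀, hy₀'⟩ : ∃ y ∈ ball x R, θ y ≠ 0 := by
    by_contra hcon
    push Not at hcon
    exact hne (Filter.mem_of_superset (ball_mem_nhds x hR) hcon)
  set e : Cm q := y₀ - x with he
  have hen : 0 < ‖e‖ := norm_pos_iff.2 (sub_ne_zero.2 (by rintro rfl; exact hy₀' h0))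
  have heR : ‖e‖ < R := by rw [he, ← dist_eq_norm]; exact hy₀
  have hlin : ∀ t : Cm q, ∀ ζ : ℂ, AnalyticAt ℂ (fun ζ : ℂ => t + ζ • e) ζ := by
    intro t ζ
    have h1 : Differentiable ℂ fun ζ : ℂ => t + ζ • e :=
      fun ζ => (differentiableAt_id.smul_const e).const_add t
    exact h1.analyticAt ζ
  have hline : ∀ t : Cm q, ∀ ζ : ℂ, t + ζ • e ∈ ball x R →
      AnalyticAt ℂ (fun ζ => θ (t + ζ • e)) ζ := by
    intro t ζ h
    exact AnalyticAt.fun_comp (g := θ) (f := fun ζ : ℂ => t + ζ • e) (hRan _ h) (hlin t ζ)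
  set h : ℂ → ℂ := fun ζ => θ (x + ζ • e) with hh
  have hball : ∀ ζ : ℂ, ‖ζ‖ * ‖e‖ < R → x + ζ • e ∈ ball x R := by
    intro ζ hζ
    rw [mem_ball, dist_eq_norm, add_sub_cancel_left, norm_smul]
    exact hζ
  have hnz : ¬ ∀ᶠ ζ in 𝓝 (0 : ℂ), h ζ = 0 := by
    intro hev
    have h1 : AnalyticOnNhd ℂ h (ball 0 (R / ‖e‖)) := by
      intro ζ hζ
      rw [mem_ball_zero_iff, lt_div_iff₀ hen] at hζ
      exact hline x ζ (hball ζ hζ)
    have h2 := h1.eqOn_zero_of_preconnected_of_eventuallyEq_zero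
      (convex_ball _ _).isPreconnected (mem_ball_self (by positivity)) hev
    have h3 : h 1 = 0 := h2 (by
      rw [mem_ball_zero_iff, lt_div_iff₀ hen, norm_one, one_mul]; exact heR)
    refine hy₀' ?_
    rw [hh] at h3
    simpa [he] using h3
  have hh0 : AnalyticAt ℂ h 0 := hline x 0 (hball 0 (by simpa using hR))
  have hpunct : ∀ᶠ ζ in 𝓝[≠] (0 : ℂ), h ζ ≠ 0 :=
    hh0.eventually_eq_zero_or_eventually_ne_zero.resolve_left hnz
  rw [eventually_nhdsWithin_iff, Metric.eventually_nhds_iff_ball] at hpunct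
  obtain ⟨ρ₁, hρ₁, hρ₁'⟩ := hpunct
  set ρ : ℝ := min (ρ₁ / 2) (R / (16 * ‖e‖)) with hρdef
  have hρ : 0 < ρ := lt_min (by positivity) (by positivity)
  have hρρ : ρ < ρ₁ := (min_le_left _ _).trans_lt (by linarith)
  have hρe : 16 * ‖e‖ * ρ ≤ R := by
    have := min_le_right (ρ₁ / 2) (R / (16 * ‖e‖))
    rw [← hρdef, le_div_iff₀ (by positivity)] at this
    linarith
  have hsmall : ∀ ζ : ℂ, ‖ζ‖ ≤ 4 * ρ → ‖ζ‖ * ‖e‖ ≤ R / 4 := by
    intro ζ hζ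
    calc ‖ζ‖ * ‖e‖ ≤ 4 * ρ * ‖e‖ := mul_le_mul_of_nonneg_right hζ hen.le
      _ = 16 * ‖e‖ * ρ / 4 := by ring
      _ ≤ R / 4 := by linarith
  have hcont : ∀ ζ : ℂ, ‖ζ‖ ≤ 4 * ρ →
      ContinuousAt (fun z : Cm q × ℂ => ‖θ (z.1 + z.2 • e)‖) (x, ζ) := by
    intro ζ hζ
    have h1 : ContinuousAt θ ((x, ζ).1 + (x, ζ).2 • e) :=
      (hRan _ (hball ζ (by have := hsmall ζ hζ; linarith))).continuousAt
    have h2 : ContinuousAt (fun z : Cm q × ℂ => z.1 + z.2 • e) (x, ζ) := by fun_prop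
    exact (ContinuousAt.comp (g := θ) (f := fun z : Cm q × ℂ => z.1 + z.2 • e) h1 h2).norm
  -- lower bound on the circle
  have hhc : ContinuousOn (fun ζ => ‖h ζ‖) (closedBall 0 (4 * ρ)) := by
    intro ζ hζ
    have hζ' : ‖ζ‖ ≤ 4 * ρ := mem_closedBall_zero_iff.1 hζ
    exact (hline x ζ (hball ζ (by have := hsmall ζ hζ'; linarith))).continuousAt.norm.continuousWithinAt
  have hsph : sphere (0 : ℂ) ρ ⊆ closedBall 0 (4 * ρ) :=
    sphere_subset_closedBall.trans (closedBall_subset_closedBall (by linarith))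
  obtain ⟨ζ₁, hζ₁, hmin⟩ := (isCompact_sphere (0 : ℂ) ρ).exists_isMinOn
    (NormedSpace.sphere_nonempty.2 hρ.le) (hhc.mono hsph)
  set m : ℝ := ‖h ζ₁‖ with hm
  have hm0 : 0 < m := by
    have h1 : ‖ζ₁‖ = ρ := mem_sphere_zero_iff_norm.1 hζ₁
    refine norm_pos_iff.2 (hρ₁' ζ₁ (mem_ball_zero_iff.2 (by rw [h1]; exact hρρ)) ?_)
    intro h2
    rw [mem_singleton_iff.1 h2, norm_zero] at h1
    exact hρ.ne h1
  obtain ⟨M₀, hM₀⟩ := (isCompact_closedBall (0 : ℂ) (4 * ρ)).exists_bound_of_continuousOn hhc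
  set M : ℝ := |M₀| + 1 with hM
  have hM1 : 1 ≤ M := by rw [hM]; linarith [abs_nonneg M₀]
  have hlow : ∀ᶠ t in 𝓝 x, ∀ ζ ∈ sphere (0 : ℂ) ρ, m / 2 < ‖θ (t + ζ • e)‖ := by
    refine (isCompact_sphere (0 : ℂ) ρ).eventually_forall_of_forall_eventually fun ζ hζ => ?_
    have h1 : ‖ζ‖ ≤ 4 * ρ := mem_closedBall_zero_iff.1 (hsph hζ)
    refine (hcont ζ h1).eventually_const_lt ?_
    have h2 : m ≤ ‖h ζ‖ := hmin hζ
    show m / 2 < ‖h ζ‖
    linarith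
  have hup : ∀ᶠ t in 𝓝 x, ∀ ζ ∈ closedBall (0 : ℂ) (4 * ρ), ‖θ (t + ζ • e)‖ < M := by
    refine (isCompact_closedBall (0 : ℂ) (4 * ρ)).eventually_forall_of_forall_eventually
      fun ζ hζ => ?_
    have h1 : ‖ζ‖ ≤ 4 * ρ := mem_closedBall_zero_iff.1 hζ
    refine (hcont ζ h1).eventually_lt_const ?_
    have h2 := hM₀ ζ hζ
    rw [norm_norm] at h2
    show ‖h ζ‖ < M
    have := le_abs_self M₀
    linarith
  set k : ℕ := ⌈Real.log (M / (m / 2)) / Real.log (3 / 2)⌉₊ with hk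
  refine ⟨m / 2 / (‖e‖ * ρ) ^ k, k, ρ * ‖e‖, by positivity, by positivity, ?_⟩
  filter_upwards [hlow, hup, ball_mem_nhds x (show 0 < R / 4 by positivity)] with t h1 h2 h3 r hr
    hrr hfree
  have h4 : ∀ ζ : ℂ, ‖ζ‖ ≤ 4 * ρ → t + ζ • e ∈ ball x R := by
    intro ζ hζ
    have h5 : t + ζ • e - x = (t - x) + ζ • e := by abel
    rw [mem_ball, dist_eq_norm, h5]
    rw [mem_ball, dist_eq_norm] at h3
    calc ‖(t - x) + ζ • e‖ ≤ ‖t - x‖ + ‖ζ • e‖ := norm_add_le _ _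
      _ < R := by rw [norm_smul]; have := hsmall ζ hζ; linarith
  have h5 := zero_free_bound (f := fun ζ => θ (t + ζ • e)) (ρ := ρ) (m₀ := m / 2) (M := M) hρ
    (by positivity) hM1 (fun ζ hζ => hline t ζ (h4 ζ (mem_closedBall_zero_iff.1 hζ)))
    (fun ζ hζ => (h2 ζ hζ).le) (fun ζ hζ => (h1 ζ hζ).le) (Nat.le_ceil _) (r := r / ‖e‖)
    (by positivity) (by rw [div_le_iff₀ hen]; exact hrr)
    (fun ζ hζ => by
      refine hfree _ ?_
      rw [add_sub_cancel_left, norm_smul]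
      rw [mem_ball_zero_iff, lt_div_iff₀ hen] at hζ
      exact hζ)
  simp only [zero_smul, add_zero] at h5
  refine le_trans (le_of_eq ?_) h5
  rw [← hk, div_pow, div_pow, mul_pow]
  field_simp

variable {Λ : AddSubgroup (Cm q)} {E : (Cm q → ℂ) → Cm q → Prop}

lemma mem_zs_iff (hE : PerDiv Λ E) {θ : Cm q → ℂ} {x : Cm q} (h : E θ x) :
    x ∈ zs E ↔ θ x = 0 := by
  constructor
  · rintro ⟨θ', h1, h2⟩
    obtain ⟨u, _, _, hu⟩ := hE.unit θ θ' x h h1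
    rw [hu.self_of_nhds, h2, mul_zero]
  · intro h0
    exact ⟨θ, h, h0⟩

lemma zs_add (hE : PerDiv Λ E) {x l : Cm q} (hx : x ∈ zs E) (hl : l ∈ Λ) : x + l ∈ zs E := by
  obtain ⟨θ, h1, h2⟩ := hx
  refine ⟨_, hE.per θ x h1 l hl, ?_⟩
  simpa using h2

/-- local form of the lower bound of the potential -/
lemma loc_bound (hE : PerDiv Λ E) {ψ : Cm q → ℝ} (hloc : ∀ θ x, E θ x → ∃ g : Cm q → ℝ,
      (∀ᶠ z in 𝓝 x, ContinuousAt g z) ∧
        ∀ᶠ z in 𝓝 x, θ z ≠ 0 → ψ z = Real.log (‖θ z‖ ^ 2) + g z) (x : Cm q) :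
    ∃ (C : ℝ) (k : ℕ) (r₀ : ℝ), 0 < C ∧ 0 < r₀ ∧ ∀ᶠ t in 𝓝 x, t ∉ zs E → ∀ r : ℝ, 0 < r →
      r ≤ r₀ → (∀ y ∈ zs E, r ≤ ‖y - t‖) → r ^ k ≤ C * Real.exp (ψ t) := by
  obtain ⟨θ, hθ⟩ := hE.ex x
  obtain ⟨g, hg1, hg2⟩ := hloc θ x hθ
  obtain ⟨a, k, r₀, ha, hr₀, hloj⟩ := loc_loj (hE.ana θ x hθ) (hE.ne θ x hθ)
  obtain ⟨r₁, hr₁, hr₁'⟩ := Metric.eventually_nhds_iff_ball.1 (hE.opn θ x hθ)
  refine ⟨(a ^ 2)⁻¹ * Real.exp (-(g x - 1)), 2 * k, min r₀ (r₁ / 2), by positivity,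
    lt_min hr₀ (by positivity), ?_⟩
  have hgc : ∀ᶠ t in 𝓝 x, g x - 1 < g t :=
    hg1.self_of_nhds.eventually_const_lt (by linarith)
  filter_upwards [hg2, hloj, hgc, ball_mem_nhds x (half_pos hr₁)] with t h1 h2 h3 h4 ht r hr hr' hy
  have hEt : E θ t := hr₁' t (ball_subset_ball (by linarith) h4)
  have hθt : θ t ≠ 0 := fun h => ht ((mem_zs_iff hE hEt).2 h)
  have h5 : a * r ^ k ≤ ‖θ t‖ := by
    refine h2 r hr (hr'.trans (min_le_left _ _)) fun y hyt h0 => ?_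
    have hyb : y ∈ ball x r₁ := by
      have h6 := dist_triangle y t x
      rw [dist_eq_norm y t] at h6
      rw [mem_ball] at h4 ⊢
      have h7 := hr'.trans (min_le_right r₀ (r₁ / 2))
      linarith
    have h8 := hy y ((mem_zs_iff hE (hr₁' y hyb)).2 h0)
    linarith
  have h6 : 0 < ‖θ t‖ := norm_pos_iff.2 hθt
  rw [h1 hθt, Real.exp_add, Real.exp_log (by positivity)]
  have h7 : (a * r ^ k) ^ 2 ≤ ‖θ t‖ ^ 2 := pow_le_pow_left₀ (by positivity) h5 2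
  have h8 : Real.exp (-(g x - 1)) * Real.exp (g t) ≥ 1 := by
    rw [← Real.exp_add]
    exact Real.one_le_exp (by linarith)
  calc r ^ (2 * k) = (a ^ 2)⁻¹ * (a * r ^ k) ^ 2 := by
        rw [mul_pow, ← pow_mul, mul_comm k 2]; field_simp
    _ ≤ (a ^ 2)⁻¹ * ‖θ t‖ ^ 2 := mul_le_mul_of_nonneg_left h7 (by positivity)
    _ = (a ^ 2)⁻¹ * ‖θ t‖ ^ 2 * 1 := by ring
    _ ≤ (a ^ 2)⁻¹ * ‖θ t‖ ^ 2 * (Real.exp (-(g x - 1)) * Real.exp (g t)) :=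
        mul_le_mul_of_nonneg_left h8 (by positivity)
    _ = _ := by ring

/-- lower bound of the potential on a compact set -/
lemma compact_bound (hE : PerDiv Λ E) {ψ : Cm q → ℝ} (hloc : ∀ θ x, E θ x → ∃ g : Cm q → ℝ,
      (∀ᶠ z in 𝓝 x, ContinuousAt g z) ∧
        ∀ᶠ z in 𝓝 x, θ z ≠ 0 → ψ z = Real.log (‖θ z‖ ^ 2) + g z) {S : Set (Cm q)}
    (hS : IsCompact S) :
    ∃ (C : ℝ) (k : ℕ) (r₀ : ℝ), 0 < C ∧ 0 < r₀ ∧ r₀ ≤ 1 ∧ ∀ t ∈ S, t ∉ zs E → ∀ r : ℝ, 0 < r →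
      r ≤ r₀ → (∀ y ∈ zs E, r ≤ ‖y - t‖) → r ^ k ≤ C * Real.exp (ψ t) := by
  refine hS.induction_on (p := fun S => ∃ (C : ℝ) (k : ℕ) (r₀ : ℝ), 0 < C ∧ 0 < r₀ ∧ r₀ ≤ 1 ∧
    ∀ t ∈ S, t ∉ zs E → ∀ r : ℝ, 0 < r →
      r ≤ r₀ → (∀ y ∈ zs E, r ≤ ‖y - t‖) → r ^ k ≤ C * Real.exp (ψ t)) ?_ ?_ ?_ ?_
  · exact ⟨1, 0, 1, one_pos, one_pos, le_refl _, fun t ht => absurd ht (notMem_empty t)⟩
  · rintro s t hst ⟨C, k, r₀, hC, hr₀, hr₀1, h⟩
    exact ⟨C, k, r₀, hC, hr₀, hr₀1, fun x hx => h x (hst hx)⟩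
  · rintro s t ⟨C, k, r₀, hC, hr₀, hr₀1, h⟩ ⟨C', k', r₀', hC', hr₀', hr₀1', h'⟩
    refine ⟨C + C', k + k', min r₀ r₀', by positivity, lt_min hr₀ hr₀',
      (min_le_left _ _).trans hr₀1, ?_⟩
    rintro x (hx | hx) hxz r hr hrr hy
    · have h1 := h x hx hxz r hr (hrr.trans (min_le_left _ _)) hy
      have hr1 : r ≤ 1 := (hrr.trans (min_le_left _ _)).trans hr₀1
      calc r ^ (k + k') ≤ r ^ k := pow_le_pow_of_le_one hr.le hr1 (by omega)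
        _ ≤ C * Real.exp (ψ x) := h1
        _ ≤ _ := mul_le_mul_of_nonneg_right (by linarith) (Real.exp_pos _).le
    · have h1 := h' x hx hxz r hr (hrr.trans (min_le_right _ _)) hy
      have hr1 : r ≤ 1 := (hrr.trans (min_le_left _ _)).trans hr₀1
      calc r ^ (k + k') ≤ r ^ k' := pow_le_pow_of_le_one hr.le hr1 (by omega)
        _ ≤ C' * Real.exp (ψ x) := h1
        _ ≤ _ := mul_le_mul_of_nonneg_right (by linarith) (Real.exp_pos _).le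
  · intro x _
    obtain ⟨C, k, r₀, hC, hr₀, h⟩ := loc_bound hE hloc x
    refine ⟨_, mem_nhdsWithin_of_mem_nhds h, C, k, min r₀ 1, hC, lt_min hr₀ one_pos,
      min_le_right _ _, ?_⟩
    intro t ht htz r hr hrr hy
    exact ht htz r hr (hrr.trans (min_le_left _ _)) hy

/-- **The lower bound of the potential.** -/
theorem global_loj (hE : PerDiv Λ E) (hΛ : Coco Λ) (hne : (zs E).Nonempty) {ψ : Cm q → ℝ}
    (hper : ∀ l ∈ Λ, ∀ z, ψ (z + l) = ψ z) (hloc : ∀ θ x, E θ x → ∃ g : Cm q → ℝ,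
      (∀ᶠ z in 𝓝 x, ContinuousAt g z) ∧
        ∀ᶠ z in 𝓝 x, θ z ≠ 0 → ψ z = Real.log (‖θ z‖ ^ 2) + g z) :
    ∃ C₁ δ : ℝ, 0 < C₁ ∧ 0 < δ ∧ ∀ t ∉ zs E, ∀ r : ℝ, 0 < r → (∀ y ∈ zs E, r ≤ ‖y - t‖) →
      r ≤ C₁ * Real.exp (δ * ψ t) := by
  obtain ⟨R, hR⟩ := hΛ
  obtain ⟨C, k, r₀, hC, hr₀, hr₀1, hb⟩ := compact_bound hE hloc (isCompact_closedBall (0 : Cm q) R)
  obtain ⟨y₀, hy₀⟩ := hne
  set n : ℕ := k + 1 with hn
  have hn0 : n ≠ 0 := by omega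
  have hR0 : 0 ≤ R := by
    obtain ⟨l, _, h⟩ := hR 0
    exact (norm_nonneg _).trans h
  refine ⟨(1 + R / r₀) * C ^ ((n : ℝ)⁻¹), (n : ℝ)⁻¹, by positivity, by positivity, ?_⟩
  intro t ht r hr hy
  obtain ⟨l, hl, hlR⟩ := hR t
  have htl : t - l ∉ zs E := fun h => ht (by simpa using zs_add hE h hl)
  have hψ : ψ (t - l) = ψ t := by
    have := hper l hl (t - l)
    rw [sub_add_cancel] at this
    exact this.symm
  have hy' : ∀ y ∈ zs E, r ≤ ‖y - (t - l)‖ := by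
    intro y hyE
    have h1 := hy _ (zs_add hE hyE hl)
    have h2 : y + l - t = y - (t - l) := by abel
    rwa [h2] at h1
  have hrR : r ≤ R := by
    obtain ⟨l', hl', hl'R⟩ := hR (t - y₀)
    have h1 := hy _ (zs_add hE hy₀ hl')
    have h2 : y₀ + l' - t = -(t - y₀ - l') := by abel
    rw [h2, norm_neg] at h1
    exact h1.trans hl'R
  set r' : ℝ := min r r₀ with hr'
  have hr'0 : 0 < r' := lt_min hr hr₀
  have hr'1 : r' ≤ 1 := (min_le_right _ _).trans hr₀1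
  have h1 := hb (t - l) (mem_closedBall_zero_iff.2 hlR) htl r' hr'0 (min_le_right _ _)
    (fun y hyE => (min_le_left _ _).trans (hy' y hyE))
  rw [hψ] at h1
  have h2 : r' ^ n ≤ C * Real.exp (ψ t) :=
    (pow_le_pow_of_le_one hr'0.le hr'1 (by omega)).trans h1
  have h3 : r' ≤ C ^ ((n : ℝ)⁻¹) * Real.exp ((n : ℝ)⁻¹ * ψ t) := by
    refine le_of_pow_le_pow_left₀ hn0 (by positivity) ?_
    rw [mul_pow, Real.rpow_inv_natCast_pow hC.le hn0, ← Real.exp_nat_mul]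
    refine h2.trans (le_of_eq ?_)
    congr 2
    have : (n : ℝ) ≠ 0 := by exact_mod_cast hn0
    field_simp
  have h4 : r ≤ (1 + R / r₀) * r' := by
    rcases le_total r r₀ with h | h
    · rw [hr', min_eq_left h]
      have : 0 ≤ R / r₀ * r := by positivity
      linarith
    · rw [hr', min_eq_right h]
      have : (1 + R / r₀) * r₀ = r₀ + R := by field_simp
      linarith
  calc r ≤ (1 + R / r₀) * r' := h4
    _ ≤ (1 + R / r₀) * (C ^ ((n : ℝ)⁻¹) * Real.exp ((n : ℝ)⁻¹ * ψ t)) :=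
        mul_le_mul_of_nonneg_left h3 (by positivity)
    _ = _ := by ring

end Vale.Agent.P284.H383
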