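import Vale.Agent.P284.H383.Ram6

/-!
# P284 (helper383), module RAM: final statement

`ram`: an entire map `g : ℂᵖ → ℂ^q`, `P : ℂ^q → ℂᵖ` linear whose kernel is the stabiliser of a
nonempty effective divisor `D` of `ℂ^q` invariant under a cocompact group of translations; if
`P ∘ g` is ramified at all points of `g⁻¹ D`, then `P ∘ g` is degenerate everywhere.
-/

open scoped Topology ContDiff ComplexConjugate ComplexOrder
open Filter Set Metric Real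

noncomputable section

namespace Vale.Agent.P284.H383

open Vale.Agent.P272.K Vale.Agent.P284.H213.KL Vale.Agent.P284.H279

variable {p q : ℕ}

/-- a linear map vanishing on the kernel of another one factors through it -/
lemma exists_factor {U V W : Type*} [AddCommGroup U] [Module ℂ U] [AddCommGroup V] [Module ℂ V]
    [AddCommGroup W] [Module ℂ W] (L : U →ₗ[ℂ] V) (P : U →ₗ[ℂ] W) (h : ∀ v, L v = 0 → P v = 0) :
    ∃ T : V →ₗ[ℂ] W, ∀ v, T (L v) = P v := by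
  set f : (U ⧸ LinearMap.ker L) →ₗ[ℂ] W := (LinearMap.ker L).liftQ P
    (fun v hv => LinearMap.mem_ker.2 (h v (LinearMap.mem_ker.1 hv))) with hf
  obtain ⟨T, hT⟩ := LinearMap.exists_extend (p := LinearMap.range L)
    (f ∘ₗ L.quotKerEquivRange.symm.toLinearMap)
  refine ⟨T, fun v => ?_⟩
  have h1 : T (L v) = (T ∘ₗ (LinearMap.range L).subtype) ⟨L v, LinearMap.mem_range_self L v⟩ := rfl
  rw [h1, hT]
  have h2 : L.quotKerEquivRange.symm ⟨L v, LinearMap.mem_range_self L v⟩ =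
      (Submodule.Quotient.mk v : U ⧸ LinearMap.ker L) := by
    rw [LinearEquiv.symm_apply_eq]
    rfl
  rw [LinearMap.comp_apply]
  show f (L.quotKerEquivRange.symm ⟨L v, LinearMap.mem_range_self L v⟩) = P v
  rw [h2]
  rfl

open scoped MatrixOrder in
lemma psd_lower {H : Matrix (Fin q) (Fin q) ℂ} (hH : H.PosSemidef) {P : Cm q →L[ℂ] Cm p}
    (hP : ∀ v : Cm q, (∑ j, ∑ k, H j k * v j * conj (v k)) = 0 → P v = 0) :
    ∃ c : ℝ, 0 < c ∧ ∀ v : Cm q, c * ‖P v‖ ^ 2 ≤ (∑ j, ∑ k, H j k * v j * conj (v k)).re := by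
  obtain ⟨B, hB⟩ := CStarAlgebra.nonneg_iff_eq_star_mul_self.mp hH.nonneg
  set L : Cm q →ₗ[ℂ] Cm q := (B.map (starRingEnd ℂ)).mulVecLin with hL
  have hLi : ∀ v i, L v i = ∑ j, conj (B i j) * v j := by
    intro v i
    rfl
  have hQ : ∀ v : Cm q, (∑ j, ∑ k, H j k * v j * conj (v k)) = ((∑ i, ‖L v i‖ ^ 2 : ℝ) : ℂ) := by
    intro v
    have h1 : ∀ j k, H j k = ∑ i, conj (B i j) * B i k := by
      intro j k
      rw [hB, Matrix.mul_apply]
      rfl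
    have h2 : ∀ i, ((‖L v i‖ ^ 2 : ℝ) : ℂ) = ∑ j, ∑ k, conj (B i j) * B i k * v j * conj (v k) := by
      intro i
      have h3 : ((‖L v i‖ ^ 2 : ℝ) : ℂ) = L v i * conj (L v i) := by
        rw [Complex.mul_conj, Complex.normSq_eq_norm_sq]
      rw [h3, hLi, map_sum, Finset.sum_mul]
      refine Finset.sum_congr rfl fun j _ => ?_
      rw [Finset.mul_sum]
      refine Finset.sum_congr rfl fun k _ => ?_
      rw [map_mul, Complex.conj_conj]; ring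
    have e1 : ∀ f : Fin q → Fin q → Fin q → ℂ,
        ∑ i, ∑ j, ∑ k, f i j k = ∑ j, ∑ k, ∑ i, f i j k := by
      intro f
      rw [Finset.sum_comm]
      exact Finset.sum_congr rfl fun j _ => Finset.sum_comm
    rw [Complex.ofReal_sum, Finset.sum_congr rfl fun i _ => h2 i, e1]
    refine Finset.sum_congr rfl fun j _ => Finset.sum_congr rfl fun k _ => ?_
    rw [h1, Finset.sum_mul, Finset.sum_mul]
  obtain ⟨T, hT⟩ := exists_factor L (P : Cm q →ₗ[ℂ] Cm p) (fun v hv => hP v (by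
    rw [hQ, hv]; simp))
  set T' : Cm q →L[ℂ] Cm p := LinearMap.toContinuousLinearMap T with hT'
  refine ⟨(‖T'‖ ^ 2 + 1)⁻¹, by positivity, fun v => ?_⟩
  rw [hQ, Complex.ofReal_re, inv_mul_le_iff₀ (by positivity)]
  have h1 : P v = T' (L v) := (hT v).symm
  have h2 : ‖P v‖ ≤ ‖T'‖ * ‖L v‖ := by rw [h1]; exact T'.le_opNorm _
  have h3 : ‖L v‖ ^ 2 ≤ ∑ i, ‖L v i‖ ^ 2 := by
    have h4 : ‖L v‖ ≤ Real.sqrt (∑ i, ‖L v i‖ ^ 2) := by
      rw [pi_norm_le_iff_of_nonneg (Real.sqrt_nonneg _)]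
      intro i
      refine Real.le_sqrt_of_sq_le ?_
      exact Finset.single_le_sum (f := fun i => ‖L v i‖ ^ 2) (fun _ _ => sq_nonneg _)
        (Finset.mem_univ i)
    calc ‖L v‖ ^ 2 ≤ Real.sqrt (∑ i, ‖L v i‖ ^ 2) ^ 2 := pow_le_pow_left₀ (norm_nonneg _) h4 2
      _ = _ := Real.sq_sqrt (Finset.sum_nonneg fun _ _ => sq_nonneg _)
  have h0 : 0 ≤ ∑ i, ‖L v i‖ ^ 2 := Finset.sum_nonneg fun _ _ => sq_nonneg _
  calc ‖P v‖ ^ 2 ≤ (‖T'‖ * ‖L v‖) ^ 2 := pow_le_pow_left₀ (norm_nonneg _) h2 2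
    _ = ‖T'‖ ^ 2 * ‖L v‖ ^ 2 := by ring
    _ ≤ ‖T'‖ ^ 2 * ∑ i, ‖L v i‖ ^ 2 := mul_le_mul_of_nonneg_left h3 (by positivity)
    _ ≤ (‖T'‖ ^ 2 + 1) * ∑ i, ‖L v i‖ ^ 2 := mul_le_mul_of_nonneg_right (by linarith) h0

/-- **RAM.** -/
theorem ram (h3 : Pot3Stmt) (hp : 1 ≤ p) {Λ : AddSubgroup (Cm q)} {E : (Cm q → ℂ) → Cm q → Prop}
    (hE : PerDiv Λ E) (hΛ : Coco Λ) (hne : (zs E).Nonempty) {P : Cm q →L[ℂ] Cm p}
    (hP0 : ∀ v, (∀ c : ℂ, ∀ x ∈ zs E, x + c • v ∈ zs E) → P v = 0)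
    (hP1 : ∀ v, P v = 0 → ∀ x ∈ zs E, x + v ∈ zs E)
    {g : Cm p → Cm q} (hg : Differentiable ℂ g)
    (hcrit : ∀ z, g z ∈ zs E → (fderiv ℂ (fun y => P (g y)) z).det = 0) (z : Cm p) :
    (fderiv ℂ (fun y => P (g y)) z).det = 0 := by
  obtain ⟨ψ, H, C₀, hper, hup, hH, hnull, hloc⟩ := h3 q Λ E hE hΛ
  obtain ⟨c, hc, hcP⟩ := psd_lower (P := P) hH (fun v hv => by
    refine hP0 v fun a x hx => ?_
    refine hnull (a • v) ?_ x hx
    have h1 : (∑ j, ∑ k, H j k * (a • v) j * conj ((a • v) k)) =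
        a * conj a * ∑ j, ∑ k, H j k * v j * conj (v k) := by
      rw [Finset.mul_sum]
      refine Finset.sum_congr rfl fun j _ => ?_
      rw [Finset.mul_sum]
      refine Finset.sum_congr rfl fun k _ => ?_
      simp only [Pi.smul_apply, smul_eq_mul, map_mul]
      ring
    rw [h1, hv, mul_zero])
  have hlocal : ∀ t ∉ zs E, ∃ (θ : Cm q → ℂ) (g : Cm q → ℝ), AnalyticAt ℂ θ t ∧ θ t ≠ 0 ∧
      (ContDiffAt ℝ ∞ g t ∧ cHess g t = -H) ∧
        ψ =ᶠ[𝓝 t] fun z => Real.log (‖θ z‖ ^ 2) + g z := by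
    intro t ht
    obtain ⟨θ, hθ⟩ := hE.ex t
    obtain ⟨g, hg1, hg2⟩ := hloc θ t hθ
    have h0 : θ t ≠ 0 := fun h => ht ((mem_zs_iff hE hθ).2 h)
    refine ⟨θ, g, hE.ana θ t hθ, h0, hg1.self_of_nhds, ?_⟩
    filter_upwards [hg2, (hE.ana θ t hθ).continuousAt.eventually_ne h0] with z h1 h2
    exact h1 h2
  have hlogc : ∀ {θ : Cm q → ℂ} {t : Cm q}, AnalyticAt ℂ θ t → θ t ≠ 0 →
      ContDiffAt ℝ 2 (fun z => Real.log (‖θ z‖ ^ 2)) t := by
    intro θ t hθ h0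
    have h1 : ContDiffAt ℝ 2 θ t := (hθ.contDiffAt (n := 2)).restrict_scalars ℝ
    have : 0 < ‖θ t‖ := norm_pos_iff.2 h0
    exact (h1.norm_sq ℝ).log (by positivity)
  obtain ⟨C₁, δ, hC₁, hδ, hloj⟩ := global_loj hE hΛ hne hper (fun θ x h => by
    obtain ⟨g, hg1, hg2⟩ := hloc θ x h
    exact ⟨g, hg1.mono fun z hz => hz.1.continuousAt, hg2⟩)
  refine ram_core (D := zs E) (ψ := ψ) (c := c) (C₀ := C₀) (C₁ := C₁) (δ := δ) hp hc hδ hC₁
    ?_ ?_ hup hloj (fun y hy k hk => hP1 k hk y hy) hg hcrit z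
  · intro t ht
    obtain ⟨θ, g, h1, h2, h3, h4⟩ := hlocal t ht
    exact ((hlogc h1 h2).add (h3.1.of_le (by norm_cast))).congr_of_eventuallyEq h4
  · intro t ht v
    obtain ⟨θ, g, h1, h2, h3, h4⟩ := hlocal t ht
    rw [lev_congr h4, lev_add (hlogc h1 h2) (h3.1.of_le (by norm_cast)),
      lev_log_sq (h1.contDiffAt (n := ω)) h2, zero_add]
    have h5 : lev g t v = -(∑ j, ∑ k, H j k * v j * conj (v k)).re := by
      unfold lev
      rw [h3.2, ← Complex.neg_re, ← Finset.sum_neg_distrib]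
      congr 1
      refine Finset.sum_congr rfl fun j _ => ?_
      rw [← Finset.sum_neg_distrib]
      refine Finset.sum_congr rfl fun k _ => ?_
      rw [Matrix.neg_apply]; ring
    rw [h5]
    have := hcP v
    linarith

/-- **RAM**, trivial stabiliser. -/
theorem ram_id (h3 : Pot3Stmt) (hq : 1 ≤ q) {Λ : AddSubgroup (Cm q)}
    {E : (Cm q → ℂ) → Cm q → Prop} (hE : PerDiv Λ E) (hΛ : Coco Λ) (hne : (zs E).Nonempty)
    (hstab : ∀ v, (∀ c : ℂ, ∀ x ∈ zs E, x + c • v ∈ zs E) → v = 0)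
    {g : Cm q → Cm q} (hg : Differentiable ℂ g)
    (hcrit : ∀ z, g z ∈ zs E → (fderiv ℂ g z).det = 0) (z : Cm q) :
    (fderiv ℂ g z).det = 0 :=
  ram h3 hq hE hΛ hne (P := ContinuousLinearMap.id ℂ (Cm q)) (fun v hv => hstab v hv)
    (fun v hv x hx => by
      have : v = 0 := hv
      rw [this, add_zero]; exact hx) hg hcrit z

end Vale.Agent.P284.H383
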